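import Vale.Agent.P083.LiftEq

open scoped ENNReal Topology InnerProductSpace
open Filter

namespace Vale.Agent.P083

section abs

variable {H' : Type} [NormedAddCommGroup H'] [InnerProductSpace ℂ H'] [CompleteSpace H']

/-- the two isometries `e_n ↦ e_(2n)` and `e_n ↦ e_(2n+1)` -/
def Gens (e : ℕ → H') : Set (H' →L[ℂ] H') :=
  {s | (∀ n, s (e n) = e (2 * n)) ∨ (∀ n, s (e n) = e (2 * n + 1))}

/-- the C*-algebra generated by the two isometries -/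
def Cuntz (e : ℕ → H') : Set (H' →L[ℂ] H') :=
  closure (StarAlgebra.adjoin ℂ (Gens e) : Set (H' →L[ℂ] H'))

/-- unital embedding into the ultrapower by representing sequences -/
def EmbedsAt (e : ℕ → H') (ω : Ultrafilter ℕ) (A : Type) [CStarAlgebra A] : Prop :=
  ∃ s : A → ℕ → (H' →L[ℂ] H'), (∀ a n, s a n ∈ Cuntz e) ∧ (∀ a, ∃ C : ℝ, ∀ n, ‖s a n‖ ≤ C) ∧
    Tendsto (fun n => ‖s 1 n - 1‖) ω (𝓝 0) ∧
    (∀ a b, Tendsto (fun n => ‖s (a + b) n - (s a n + s b n)‖) ω (𝓝 0)) ∧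
    (∀ a b, Tendsto (fun n => ‖s (a * b) n - s a n * s b n‖) ω (𝓝 0)) ∧
    (∀ (c : ℂ) (a : A), Tendsto (fun n => ‖s (c • a) n - c • s a n‖) ω (𝓝 0)) ∧
    (∀ a, Tendsto (fun n => ‖s (star a) n - star (s a n)‖) ω (𝓝 0)) ∧
    ∀ a, Tendsto (fun n => ‖s a n‖) ω (𝓝 0) → a = 0

end abs

/-- unital embedding into `O_2^ω` -/
def EmbedsO2 (ω : Ultrafilter ℕ) (A : Type) [CStarAlgebra A] : Prop :=
  EmbedsAt (fun n => (lp.single 2 n (1 : ℂ) : lp (fun _ : ℕ => ℂ) 2)) ω A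

theorem embedsO2_iff {ω : Ultrafilter ℕ} {A : Type} [CStarAlgebra A] :
    EmbedsO2 ω A ↔ EmbedsL ω A := Iff.rfl

end Vale.Agent.P083
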