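import Vale.Agent.P083.TRel

open scoped ENNReal Topology InnerProductSpace
open Filter

namespace Vale.Agent.P083

open Vale.Agent.P101K

/-! Module CO -/

theorem CO_mul (r : ℕ) (a b : Fin (2 ^ r) → L) :
    (∑ k, T r k * a k * star (T r k)) * (∑ k, T r k * b k * star (T r k)) =
      ∑ k, T r k * (a k * b k) * star (T r k) := by
  rw [Finset.sum_mul_sum]
  refine Finset.sum_congr rfl fun i _ => ?_
  rw [Finset.sum_eq_single i]
  · have h := T_star_mul r i i
    rw [if_pos rfl] at h
    calc T r i * a i * star (T r i) * (T r i * b i * star (T r i))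
        = T r i * a i * (star (T r i) * T r i) * b i * star (T r i) := by noncomm_ring
      _ = T r i * (a i * b i) * star (T r i) := by rw [h]; noncomm_ring
  · intro j _ hji
    have h := T_star_mul r i j
    rw [if_neg (fun h => hji h.symm)] at h
    calc T r i * a i * star (T r i) * (T r j * b j * star (T r j))
        = T r i * a i * (star (T r i) * T r j) * b j * star (T r j) := by noncomm_ring
      _ = 0 := by rw [h]; noncomm_ring
  · intro hi
    exact absurd (Finset.mem_univ i) hi

theorem CO_mem (r : ℕ) (a : Fin (2 ^ r) → O2) :
    (∑ k, T r k * ((a k : O2) : L) * star (T r k)) ∈ O2 :=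
  sum_mem fun k _ => mul_mem (mul_mem (T_mem r k) (a k).2) (star_mem (T_mem r k))

/-- sum of `2^r` endomorphisms with the isometries -/
theorem exists_comb (r : ℕ) (φ : Fin (2 ^ r) → (O2 →⋆ₐ[ℂ] O2)) :
    ∃ Φ : O2 →⋆ₐ[ℂ] O2, ∀ x : O2,
      ((Φ x : O2) : L) = ∑ k, T r k * ((φ k x : O2) : L) * star (T r k) := by
  refine ⟨{ toFun := fun x => ⟨∑ k, T r k * ((φ k x : O2) : L) * star (T r k),
              CO_mem r (fun k => φ k x)⟩
            map_one' := ?_
            map_mul' := ?_
            map_zero' := ?_
            map_add' := ?_
            commutes' := ?_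
            map_star' := ?_ }, fun x => rfl⟩
  · apply Subtype.ext
    simp only [map_one, OneMemClass.coe_one, mul_one]
    exact T_sum r
  · intro x y
    apply Subtype.ext
    simp only [map_mul, MulMemClass.coe_mul]
    exact (CO_mul r (fun k => ((φ k x : O2) : L)) (fun k => ((φ k y : O2) : L))).symm
  · apply Subtype.ext
    simp only [map_zero, ZeroMemClass.coe_zero, mul_zero, zero_mul, Finset.sum_const_zero]
  · intro x y
    apply Subtype.ext
    simp only [map_add, AddMemClass.coe_add, mul_add, add_mul, Finset.sum_add_distrib]
  · intro c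
    apply Subtype.ext
    simp only [AlgHomClass.commutes]
    have h : ((algebraMap ℂ O2 c : O2) : L) = c • (1 : L) := by
      rw [Algebra.algebraMap_eq_smul_one]
      rfl
    rw [h]
    simp only [mul_smul_comm, smul_mul_assoc, mul_one, ← Finset.smul_sum]
    rw [T_sum r]
  · intro x
    apply Subtype.ext
    show (∑ k, T r k * ((φ k (star x) : O2) : L) * star (T r k)) =
      star (∑ k, T r k * ((φ k x : O2) : L) * star (T r k))
    rw [star_sum]
    refine Finset.sum_congr rfl fun k _ => ?_
    rw [star_mul, star_mul, star_star, map_star, ← mul_assoc]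
    rfl

theorem exists_Ad (u : O2) (h1 : star u * u = 1) (h2 : u * star u = 1) :
    ∃ Φ : O2 →⋆ₐ[ℂ] O2, ∀ x : O2, Φ x = u * x * star u := by
  refine ⟨{ toFun := fun x => u * x * star u
            map_one' := ?_
            map_mul' := ?_
            map_zero' := ?_
            map_add' := ?_
            commutes' := ?_
            map_star' := ?_ }, fun x => rfl⟩
  · rw [mul_one, h2]
  · intro x y
    calc u * (x * y) * star u = u * x * 1 * y * star u := by noncomm_ring
      _ = u * x * (star u * u) * y * star u := by rw [h1]
      _ = u * x * star u * (u * y * star u) := by noncomm_ring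
  · rw [mul_zero, zero_mul]
  · intro x y
    rw [mul_add, add_mul]
  · intro c
    show u * (algebraMap ℂ O2 c) * star u = _
    rw [← Algebra.commutes c u, mul_assoc, h2, mul_one]
  · intro x
    show u * star x * star u = star (u * x * star u)
    rw [star_mul, star_mul, star_star, mul_assoc]

end Vale.Agent.P083
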