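import Vale.Agent.P083.CombA

open scoped ENNReal Topology InnerProductSpace
open Filter

namespace Vale.Agent.P083

open Vale.Agent.P101K

variable {A B : Type}

/-- `Φ x` intertwines with `φ k x` through `T r k` -/
theorem COMB_inter (r : ℕ) (φ : Fin (2 ^ r) → (O2 →⋆ₐ[ℂ] O2)) (Φ : O2 →⋆ₐ[ℂ] O2)
    (h : ∀ x : O2, ((Φ x : O2) : L) = ∑ k, T r k * ((φ k x : O2) : L) * star (T r k))
    (k : Fin (2 ^ r)) (x : O2) :
    ((Φ x : O2) : L) * T r k = T r k * ((φ k x : O2) : L) := by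
  rw [h x, Finset.sum_mul, Finset.sum_eq_single k]
  · rw [mul_assoc, T_star_mul, if_pos rfl, mul_one]
  · intro j _ hj
    rw [mul_assoc, T_star_mul, if_neg hj, mul_zero]
  · intro hk
    exact absurd (Finset.mem_univ k) hk

theorem COMB_word (Φ Ψ φ ψ : O2 →⋆ₐ[ℂ] O2) (t : L)
    (h1 : ∀ x : O2, ((Φ x : O2) : L) * t = t * ((φ x : O2) : L))
    (h2 : ∀ x : O2, ((Ψ x : O2) : L) * t = t * ((ψ x : O2) : L))
    (f : A → O2) (g : B → O2) (w : List (A ⊕ B)) :
    ((evW (fun a => Φ (f a)) (fun b => Ψ (g b)) w : O2) : L) * t =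
      t * ((evW (fun a => φ (f a)) (fun b => ψ (g b)) w : O2) : L) := by
  induction w with
  | nil =>
    simp [evW]
  | cons s w ih =>
    have e1 : ∀ (F : A → O2) (G : B → O2), (evW F G (s :: w) : O2) =
        Sum.elim F G s * evW F G w := fun F G => by
      simp [evW]
    rw [e1, e1]
    have e2 : ∀ x y : O2, ((x * y : O2) : L) = (x : L) * (y : L) := fun x y => rfl
    rw [e2, e2, mul_assoc, ih, ← mul_assoc, ← mul_assoc]
    congr 1
    cases s with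
    | inl a => exact h1 (f a)
    | inr b => exact h2 (g b)

theorem COMB_poly (Φ Ψ φ ψ : O2 →⋆ₐ[ℂ] O2) (t : L)
    (h1 : ∀ x : O2, ((Φ x : O2) : L) * t = t * ((φ x : O2) : L))
    (h2 : ∀ x : O2, ((Ψ x : O2) : L) * t = t * ((ψ x : O2) : L))
    (f : A → O2) (g : B → O2) (p : List (ℂ × List (A ⊕ B))) :
    ((evP (fun a => Φ (f a)) (fun b => Ψ (g b)) p : O2) : L) * t =
      t * ((evP (fun a => φ (f a)) (fun b => ψ (g b)) p : O2) : L) := by
  induction p with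
  | nil =>
    simp [evP]
  | cons s p ih =>
    have e1 : ∀ (F : A → O2) (G : B → O2), (evP F G (s :: p) : O2) =
        s.1 • evW F G s.2 + evP F G p := fun F G => by
      simp [evP]
    rw [e1, e1]
    have e2 : ∀ x y : O2, ((x + y : O2) : L) = (x : L) + (y : L) := fun x y => rfl
    have e3 : ∀ (c : ℂ) (x : O2), ((c • x : O2) : L) = c • (x : L) := fun c x => rfl
    rw [e2, e2, e3, e3, add_mul, mul_add, ih, smul_mul_assoc, mul_smul_comm,
      COMB_word Φ Ψ φ ψ t h1 h2 f g s.2]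

/-- Module COMB: `evP (comb φ ∘ f) (comb ψ ∘ g) p = ∑ T k (evP (φ k ∘ f) (ψ k ∘ g) p) T k^*`, so its
norm is at least the norm of each summand -/
theorem comb_evP (r : ℕ) (φ ψ : Fin (2 ^ r) → (O2 →⋆ₐ[ℂ] O2)) :
    ∃ Φ Ψ : O2 →⋆ₐ[ℂ] O2, ∀ (f : A → O2) (g : B → O2) (p : List (ℂ × List (A ⊕ B)))
      (k : Fin (2 ^ r)),
      ‖evP (fun a => φ k (f a)) (fun b => ψ k (g b)) p‖ ≤
        ‖evP (fun a => Φ (f a)) (fun b => Ψ (g b)) p‖ := by
  obtain ⟨Φ, hΦ⟩ := exists_comb r φ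
  obtain ⟨Ψ, hΨ⟩ := exists_comb r ψ
  refine ⟨Φ, Ψ, fun f g p k => ?_⟩
  have h := COMB_poly Φ Ψ (φ k) (ψ k) (T r k) (COMB_inter r φ Φ hΦ k)
    (COMB_inter r ψ Ψ hΨ k) f g p
  have hT : star (T r k) * T r k = 1 := by rw [T_star_mul, if_pos rfl]
  have hn : ‖T r k‖ * ‖T r k‖ = 1 := by
    rw [← CStarRing.norm_star_mul_self, hT, CStarRing.norm_one]
  have hn1 : ‖T r k‖ = 1 := by
    nlinarith [norm_nonneg (T r k)]
  have hs1 : ‖star (T r k)‖ = 1 := by
    rw [show star (T r k) = ContinuousLinearMap.adjoint (T r k) from rfl,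
      LinearIsometryEquiv.norm_map]
    exact hn1
  have h3 : ((evP (fun a => φ k (f a)) (fun b => ψ k (g b)) p : O2) : L) =
      star (T r k) * (((evP (fun a => Φ (f a)) (fun b => Ψ (g b)) p : O2) : L) * T r k) := by
    rw [h, ← mul_assoc, hT, one_mul]
  have e4 : ∀ x : O2, ‖x‖ = ‖(x : L)‖ := fun x => rfl
  rw [e4, e4, h3]
  calc ‖star (T r k) * (((evP (fun a => Φ (f a)) (fun b => Ψ (g b)) p : O2) : L) * T r k)‖
      ≤ ‖star (T r k)‖ * (‖((evP (fun a => Φ (f a)) (fun b => Ψ (g b)) p : O2) : L)‖ *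
          ‖T r k‖) := (norm_mul_le _ _).trans
            (mul_le_mul_of_nonneg_left (norm_mul_le _ _) (norm_nonneg _))
    _ = ‖((evP (fun a => Φ (f a)) (fun b => Ψ (g b)) p : O2) : L)‖ := by
      rw [hs1, hn1, one_mul, mul_one]

end Vale.Agent.P083
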