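import Vale.Agent.P101K.Aomega

/-!
# P083: closure of the class of unital subalgebras of `O_2^ω` under full free products

Paper proof. `O_2` acts on `ℓ²(ℕ)` by `s_b e_n = e_(2n+b)`; the isometries `T r i : e_n ↦ e_(2^r n + i)`
(`i < 2^r`) are in `O_2`, satisfy the Cuntz relations, and the matrices `∑ V i j • T i * star (T j)`
act as arbitrary matrices on the span of the first `2^r` basis vectors; so any two finite families of
vectors with almost equal Gram matrices are almost conjugate by a unitary of `O_2` (UNI).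
Let `α : A → O_2^ω` be injective, `α a = [lift a n]`, let `φ` be a positive functional on `C`,
`i : A → C`, `x_1, …` finitely many elements of `C`. For `ω`-many `n` there are `r` and vectors
`η` with `⟪η_k, Θ_r(lift a n) η_l⟫ ≈ φ(x_k^* i(a) x_l)` for finitely many `a`, where
`Θ_r(y) = ∑ T_k y T_k^*` (HBV): the achieved values contain a convex cone, separate (SEP), pass to the
limit of the coefficients, use positivity in `M_(2^q)(A)`, which embeds into `O_2^ω` (POS1 POS2 POS3).
Apply this to `A` and `B` with `x` = all suffixes of the words of a *-polynomial `p`, and with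
`φ(p^* p) = ‖p‖^2` (STATE); the Gram matrices agree up to small errors, take `u` from UNI; then
`Θ_r` and `Ad u ∘ Θ_r'` give `‖p(Θ_r lift_A, u Θ_r' lift_B u^*)‖ ≥ ‖p‖ - ε` (KEY). Finitely many
polynomials: sum with Cuntz isometries (COMB). Diagonal sequence (DIAG), universal property.
-/

open scoped ENNReal Topology InnerProductSpace
open Filter

namespace Vale.Agent.P083

open Vale.Agent.P101K

/-- `ℓ²(ℕ)` -/
abbrev H : Type := lp (fun _ : ℕ => ℂ) 2

/-- bounded operators on `ℓ²(ℕ)` -/
abbrev L : Type := H →L[ℂ] H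

/-- the standard basis vectors -/
noncomputable def e (n : ℕ) : H := lp.single 2 n (1 : ℂ)

/-- the two isometries `e_n ↦ e_(2n)` and `e_n ↦ e_(2n+1)` -/
def gens : Set L := {s | (∀ n, s (e n) = e (2 * n)) ∨ (∀ n, s (e n) = e (2 * n + 1))}

/-- the Cuntz algebra `O_2`, the C*-algebra of operators on `ℓ²(ℕ)` generated by the two
isometries -/
noncomputable def O2 : StarSubalgebra ℂ L := (StarAlgebra.adjoin ℂ gens).topologicalClosure

instance : IsClosed ((O2 : StarSubalgebra ℂ L) : Set L) :=
  StarSubalgebra.isClosed_topologicalClosure _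

theorem e_ne_zero (n : ℕ) : e n ≠ 0 := by
  intro h
  have h1 := congrArg (fun f : H => f n) h
  simp [e] at h1

instance : Nontrivial L := by
  refine ⟨1, 0, fun h => ?_⟩
  have h1 := congrArg (fun t : L => t (e 0)) h
  exact e_ne_zero 0 h1

instance : Nontrivial O2 := by
  refine ⟨1, 0, fun h => ?_⟩
  have h1 := congrArg (fun t : O2 => (t : L)) h
  exact one_ne_zero (α := L) h1

noncomputable instance : CStarAlgebra O2 := inferInstance

/-- a family of isometries `e_n ↦ e_(2^r n + i)`, see `T_e` -/
noncomputable def T (r : ℕ) (i : Fin (2 ^ r)) : L := by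
  classical
  exact if h : ∃ t : L, ∀ n, t (e n) = e (2 ^ r * n + i) then h.choose else 0

section Words

variable {A B D : Type}

/-- value of a word -/
def evW [Monoid D] (f : A → D) (g : B → D) (w : List (A ⊕ B)) : D := (w.map (Sum.elim f g)).prod

/-- value of a polynomial -/
def evP [Ring D] [Algebra ℂ D] (f : A → D) (g : B → D) (p : List (ℂ × List (A ⊕ B))) : D :=
  (p.map (fun t => t.1 • evW f g t.2)).sum

end Words

/-- `C` is the unital full free product of the unital C*-algebras `A` and `B` -/
structure IsFreeProduct {A B C : Type} [CStarAlgebra A] [CStarAlgebra B] [CStarAlgebra C]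
    (i : A →⋆ₐ[ℂ] C) (j : B →⋆ₐ[ℂ] C) : Prop where
  /-- generated by the two images -/
  gen : (StarAlgebra.adjoin ℂ (Set.range i ∪ Set.range j)).topologicalClosure = ⊤
  /-- the universal property -/
  univ : ∀ (D : Type) [CStarAlgebra D] (f : A →⋆ₐ[ℂ] D) (g : B →⋆ₐ[ℂ] D),
    ∃ h : C →⋆ₐ[ℂ] D, (∀ a, h (i a) = f a) ∧ ∀ b, h (j b) = g b

/-- `A` embeds unitally into the norm ultrapower `O_2^ω` -/
def Embeds (ω : Ultrafilter ℕ) (A : Type) [CStarAlgebra A] : Prop :=
  ∃ f : A →⋆ₐ[ℂ] Aom O2 ω, Function.Injective f

/-- a choice of representing sequences -/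
structure Lift (ω : Ultrafilter ℕ) {A : Type} [CStarAlgebra A] (α : A →⋆ₐ[ℂ] Aom O2 ω) where
  /-- the sequences -/
  seq : A → Bdd O2
  /-- they represent `α` -/
  spec : ∀ a, omk O2 ω (seq a) = α a

end Vale.Agent.P083
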