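import Vale.Agent.P083.Defs

open scoped ENNReal Topology InnerProductSpace
open Filter

namespace Vale.Agent.P083

open Vale.Agent.P101K

private theorem DE_word {A B C : Type} [CStarAlgebra A] [CStarAlgebra B] [CStarAlgebra C]
    (i : A →⋆ₐ[ℂ] C) (j : B →⋆ₐ[ℂ] C) (l : List C)
    (hl : ∀ y ∈ l, y ∈ Set.range i ∪ Set.range j) :
    ∃ w : List (A ⊕ B), evW i j w = l.prod := by
  induction l with
  | nil => exact ⟨[], rfl⟩
  | cons y l ih =>
    obtain ⟨w, hw⟩ := ih fun z hz => hl z (List.mem_cons_of_mem _ hz)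
    rcases hl y List.mem_cons_self with ⟨a, ha⟩ | ⟨b, hb⟩
    · refine ⟨Sum.inl a :: w, ?_⟩
      rw [List.prod_cons, ← hw, ← ha]
      simp [evW]
    · refine ⟨Sum.inr b :: w, ?_⟩
      rw [List.prod_cons, ← hw, ← hb]
      simp [evW]

private noncomputable def DE_sub {A B C : Type} [CStarAlgebra A] [CStarAlgebra B] [CStarAlgebra C]
    (i : A →⋆ₐ[ℂ] C) (j : B →⋆ₐ[ℂ] C) : Submodule ℂ C where
  carrier := Set.range (fun p : List (ℂ × List (A ⊕ B)) => evP i j p)
  add_mem' := by
    rintro _ _ ⟨p, rfl⟩ ⟨q, rfl⟩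
    exact ⟨p ++ q, by simp [evP]⟩
  zero_mem' := ⟨[], by simp [evP]⟩
  smul_mem' := by
    rintro c _ ⟨p, rfl⟩
    refine ⟨p.map (fun t => (c * t.1, t.2)), ?_⟩
    simp only [evP, List.map_map]
    induction p with
    | nil => simp
    | cons t p ih =>
      simp only [List.map_cons, List.sum_cons, smul_add]
      rw [ih]
      simp [mul_smul]

open TopologicalSpace in
/-- Module DE: the values of polynomials are dense, a countable family suffices -/
theorem exists_polys {A B C : Type} [CStarAlgebra A] [CStarAlgebra B] [CStarAlgebra C]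
    [SeparableSpace C] (i : A →⋆ₐ[ℂ] C) (j : B →⋆ₐ[ℂ] C)
    (hgen : (StarAlgebra.adjoin ℂ (Set.range i ∪ Set.range j)).topologicalClosure = ⊤) :
    ∃ p : ℕ → List (ℂ × List (A ⊕ B)), DenseRange (fun k => evP i j (p k)) := by
  have hstar : star (Set.range i ∪ Set.range j) ⊆ Set.range i ∪ Set.range j := by
    intro x hx
    rcases Set.mem_star.1 hx with ⟨a, ha⟩ | ⟨b, hb⟩
    · exact Or.inl ⟨star a, by rw [map_star, ha, star_star]⟩
    · exact Or.inr ⟨star b, by rw [map_star, hb, star_star]⟩
  have hsub : ((StarAlgebra.adjoin ℂ (Set.range i ∪ Set.range j) : StarSubalgebra ℂ C) : Set C) ⊆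
      Set.range (fun p : List (ℂ × List (A ⊕ B)) => evP i j p) := by
    intro x hx
    have h1 : x ∈ Algebra.adjoin ℂ ((Set.range i ∪ Set.range j) ∪
        star (Set.range i ∪ Set.range j)) := by
      rw [← StarAlgebra.adjoin_toSubalgebra]
      exact hx
    rw [Set.union_eq_self_of_subset_right hstar] at h1
    have h2 : x ∈ Submodule.span ℂ
        ((Submonoid.closure (Set.range i ∪ Set.range j) : Submonoid C) : Set C) := by
      rw [← Algebra.adjoin_eq_span]
      exact h1
    have h3 : Submodule.span ℂ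
        ((Submonoid.closure (Set.range i ∪ Set.range j) : Submonoid C) : Set C) ≤
        DE_sub i j := by
      refine Submodule.span_le.2 fun y hy => ?_
      obtain ⟨l, hl, rfl⟩ := Submonoid.exists_list_of_mem_closure hy
      obtain ⟨w, hw⟩ := DE_word i j l hl
      exact ⟨[(1, w)], by simp [evP, hw]⟩
    exact h3 h2
  have hdense : Dense (Set.range (fun p : List (ℂ × List (A ⊕ B)) => evP i j p)) := by
    have h1 : Dense ((StarAlgebra.adjoin ℂ (Set.range i ∪ Set.range j) :
        StarSubalgebra ℂ C) : Set C) := by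
      rw [dense_iff_closure_eq, ← StarSubalgebra.topologicalClosure_coe, hgen]
      rfl
    exact h1.mono hsub
  haveI : SecondCountableTopology C := UniformSpace.secondCountable_of_separable C
  obtain ⟨t, ht, htc, htd⟩ := hdense.exists_countable_dense_subset
  obtain ⟨f, hf⟩ := htc.exists_eq_range htd.nonempty
  have hp : ∀ k, ∃ p : List (ℂ × List (A ⊕ B)), evP i j p = f k := by
    intro k
    have : f k ∈ t := by rw [hf]; exact ⟨k, rfl⟩
    exact ht this
  choose p hp using hp
  refine ⟨p, ?_⟩
  have : (fun k => evP i j (p k)) = f := funext hp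
  rw [this, DenseRange, ← hf]
  exact htd

end Vale.Agent.P083
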