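import Vale.Agent.P083.Defs

open scoped ENNReal Topology InnerProductSpace
open Filter

namespace Vale.Agent.P083

open Vale.Agent.P101K

/-- Module DI: diagonal sequence (cf. `sat_seq` in `Vale/Agent/P095/Sat.lean`) -/
theorem diag {X : Type} [Nonempty X] (ω : Ultrafilter ℕ) (hω : (ω : Filter ℕ) ≤ atTop)
    (P : ℕ → ℕ → X → Prop)
    (hmono : ∀ k k' n x, k ≤ k' → P k' n x → P k n x)
    (h : ∀ k, ∀ᶠ n in (ω : Filter ℕ), ∃ x, P k n x) :
    ∃ x : ℕ → X, ∀ k, ∀ᶠ n in (ω : Filter ℕ), P k n (x n) := by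
  classical
  have hx : ∀ n : ℕ, ∃ x : X, ∀ k, k ≤ n → (∃ y, P k n y) → P k n x := by
    intro n
    by_cases h0 : ∃ k, k ≤ n ∧ ∃ y, P k n y
    · obtain ⟨k0, hk0, hy0⟩ := h0
      have h1 : ∃ y, P (Nat.findGreatest (fun k => ∃ y, P k n y) n) n y :=
        Nat.findGreatest_spec (P := fun k => ∃ y, P k n y) hk0 hy0
      obtain ⟨x, hx⟩ := h1
      refine ⟨x, fun k hk hy => hmono _ _ n x ?_ hx⟩
      exact Nat.le_findGreatest (P := fun k => ∃ y, P k n y) hk hy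
    · exact ⟨Classical.arbitrary X, fun k hk hy => absurd ⟨k, hk, hy⟩ h0⟩
  choose x hx using hx
  refine ⟨x, fun k => ?_⟩
  filter_upwards [h k, hω (eventually_ge_atTop k)] with n h1 h2
  exact hx n k h2 h1

end Vale.Agent.P083
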