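import Vale.Agent.P083.Defs

open scoped ENNReal Topology InnerProductSpace
open Filter

namespace Vale.Agent.P083

open Vale.Agent.P101K

variable {A B C : Type}

/-- Module ES1: induction on the word; `W` = finite set of words closed under tails -/
theorem est_word (f : A → L) (g : B → L) (W : Set (List (A ⊕ B)))
    (hW : ∀ y w, (y :: w) ∈ W → w ∈ W) (η : List (A ⊕ B) → H) (R κ : ℝ) (hR : 1 ≤ R)
    (hκ : 0 ≤ κ) (hb : ∀ y w, (y :: w) ∈ W → ‖Sum.elim f g y‖ ≤ R)
    (h : ∀ y w, (y :: w) ∈ W → ‖(Sum.elim f g y) (η w) - η (y :: w)‖ ≤ κ) (w : List (A ⊕ B))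
    (hw : w ∈ W) : ‖evW f g w (η []) - η w‖ ≤ w.length * R ^ w.length * κ := by
  induction w with
  | nil =>
    have h0 : evW f g ([] : List (A ⊕ B)) = (1 : L) := rfl
    rw [h0, one_apply_eq_self, sub_self, norm_zero]
    simp
  | cons y w ih =>
    have ih' := ih (hW y w hw)
    have h0 : evW f g (y :: w) = Sum.elim f g y * evW f g w := by
      unfold evW
      rw [List.map_cons, List.prod_cons]
    have h1 : evW f g (y :: w) (η []) - η (y :: w) =
        (Sum.elim f g y) (evW f g w (η []) - η w) + ((Sum.elim f g y) (η w) - η (y :: w)) := by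
      have h8 : (Sum.elim f g y * evW f g w) (η []) = (Sum.elim f g y) (evW f g w (η [])) := rfl
      rw [h0, h8, map_sub]
      abel
    rw [h1]
    refine (norm_add_le _ _).trans ?_
    have h2 : ‖(Sum.elim f g y) (evW f g w (η []) - η w)‖ ≤ R * (w.length * R ^ w.length * κ) :=
      (ContinuousLinearMap.le_opNorm _ _).trans
        (mul_le_mul (hb y w hw) ih' (norm_nonneg _) (by linarith))
    have h3 := h y w hw
    have h4 : (1 : ℝ) ≤ R ^ (w.length + 1) := one_le_pow₀ hR
    have h5 : κ ≤ R ^ (w.length + 1) * κ := le_mul_of_one_le_left hκ h4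
    rw [List.length_cons]
    push_cast
    have h6 : R * (w.length * R ^ w.length * κ) = w.length * (R ^ (w.length + 1) * κ) := by
      rw [pow_succ]
      ring
    rw [h6] at h2
    have h7 : ((w.length : ℝ) + 1) * R ^ (w.length + 1) * κ =
        w.length * (R ^ (w.length + 1) * κ) + R ^ (w.length + 1) * κ := by ring
    rw [h7]
    linarith

end Vale.Agent.P083
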