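import Vale.Agent.P083.Est1

open scoped ENNReal Topology InnerProductSpace
open Filter

namespace Vale.Agent.P083

open Vale.Agent.P101K

variable {A B C : Type}

/-- the vector of a polynomial -/
private noncomputable def ES2_vec (η : List (A ⊕ B) → H) (p : List (ℂ × List (A ⊕ B))) : H :=
  (p.map (fun t => t.1 • η t.2)).sum

private lemma ES2_vec_cons (η : List (A ⊕ B) → H) (t : ℂ × List (A ⊕ B))
    (p : List (ℂ × List (A ⊕ B))) : ES2_vec η (t :: p) = t.1 • η t.2 + ES2_vec η p := by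
  simp only [ES2_vec, List.map_cons, List.sum_cons]

private lemma ES2_evP_cons {D : Type} [Ring D] [Algebra ℂ D] (f : A → D) (g : B → D)
    (t : ℂ × List (A ⊕ B)) (p : List (ℂ × List (A ⊕ B))) :
    evP f g (t :: p) = t.1 • evW f g t.2 + evP f g p := by
  simp only [evP, List.map_cons, List.sum_cons]

private lemma ES2_a [CStarAlgebra A] [CStarAlgebra B] [CStarAlgebra C] (i : A →⋆ₐ[ℂ] C)
    (j : B →⋆ₐ[ℂ] C) (φ : C →L[ℂ] ℂ) (W : Set (List (A ⊕ B))) (κ : ℝ)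
    (η : List (A ⊕ B) → H)
    (h : ∀ w ∈ W, ∀ w' ∈ W,
        ‖⟪η w, η w'⟫_ℂ - φ (star (evW i j w) * evW i j w')‖ ≤ κ) (w : List (A ⊕ B)) (hw : w ∈ W)
    (q : List (ℂ × List (A ⊕ B))) (hq : ∀ t ∈ q, t.2 ∈ W) :
    ‖⟪η w, ES2_vec η q⟫_ℂ - φ (star (evW i j w) * evP i j q)‖ ≤
      (q.map (fun t => ‖t.1‖)).sum * κ := by
  induction q with
  | nil => simp [ES2_vec, evP]
  | cons t q ih =>
    have h1 := ih (fun s hs => hq s (List.mem_cons_of_mem _ hs))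
    have h2 := h w hw t.2 (hq t List.mem_cons_self)
    rw [ES2_vec_cons, ES2_evP_cons, inner_add_right, inner_smul_right, mul_add, mul_smul_comm,
      map_add, map_smul, smul_eq_mul, List.map_cons, List.sum_cons]
    have h3 : t.1 * ⟪η w, η t.2⟫_ℂ + ⟪η w, ES2_vec η q⟫_ℂ -
        (t.1 * φ (star (evW i j w) * evW i j t.2) + φ (star (evW i j w) * evP i j q)) =
        t.1 * (⟪η w, η t.2⟫_ℂ - φ (star (evW i j w) * evW i j t.2)) +
          (⟪η w, ES2_vec η q⟫_ℂ - φ (star (evW i j w) * evP i j q)) := by ring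
    rw [h3, add_mul]
    refine (norm_add_le _ _).trans (add_le_add ?_ h1)
    rw [norm_mul]
    exact mul_le_mul_of_nonneg_left h2 (norm_nonneg _)

private lemma ES2_b [CStarAlgebra A] [CStarAlgebra B] [CStarAlgebra C] (i : A →⋆ₐ[ℂ] C)
    (j : B →⋆ₐ[ℂ] C) (φ : C →L[ℂ] ℂ) (W : Set (List (A ⊕ B))) (κ : ℝ)
    (η : List (A ⊕ B) → H)
    (h : ∀ w ∈ W, ∀ w' ∈ W,
        ‖⟪η w, η w'⟫_ℂ - φ (star (evW i j w) * evW i j w')‖ ≤ κ)
    (p q : List (ℂ × List (A ⊕ B))) (hp : ∀ t ∈ p, t.2 ∈ W) (hq : ∀ t ∈ q, t.2 ∈ W) :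
    ‖⟪ES2_vec η p, ES2_vec η q⟫_ℂ - φ (star (evP i j p) * evP i j q)‖ ≤
      (p.map (fun t => ‖t.1‖)).sum * ((q.map (fun t => ‖t.1‖)).sum * κ) := by
  induction p with
  | nil => simp [ES2_vec, evP]
  | cons t p ih =>
    have h1 := ih (fun s hs => hp s (List.mem_cons_of_mem _ hs))
    have h2 := ES2_a i j φ W κ η h t.2 (hp t List.mem_cons_self) q hq
    rw [ES2_vec_cons, ES2_evP_cons, inner_add_left, inner_smul_left, star_add, star_smul, add_mul,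
      smul_mul_assoc, map_add, map_smul, smul_eq_mul, List.map_cons, List.sum_cons]
    have h3 : (starRingEnd ℂ) t.1 * ⟪η t.2, ES2_vec η q⟫_ℂ + ⟪ES2_vec η p, ES2_vec η q⟫_ℂ -
        (star t.1 * φ (star (evW i j t.2) * evP i j q) + φ (star (evP i j p) * evP i j q)) =
        (starRingEnd ℂ) t.1 * (⟪η t.2, ES2_vec η q⟫_ℂ - φ (star (evW i j t.2) * evP i j q)) +
          (⟪ES2_vec η p, ES2_vec η q⟫_ℂ - φ (star (evP i j p) * evP i j q)) := by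
      rw [starRingEnd_apply]
      ring
    rw [h3, add_mul]
    refine (norm_add_le _ _).trans (add_le_add ?_ h1)
    rw [norm_mul, RCLike.norm_conj]
    exact mul_le_mul_of_nonneg_left h2 (norm_nonneg _)

private lemma ES2_c (f : A → L) (g : B → L) (W : Set (List (A ⊕ B)))
    (hW : ∀ y w, (y :: w) ∈ W → w ∈ W) (η : List (A ⊕ B) → H) (R κ : ℝ) (hR : 1 ≤ R)
    (hκ : 0 ≤ κ) (hb : ∀ y w, (y :: w) ∈ W → ‖Sum.elim f g y‖ ≤ R)
    (h : ∀ y w, (y :: w) ∈ W → ‖(Sum.elim f g y) (η w) - η (y :: w)‖ ≤ κ)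
    (p : List (ℂ × List (A ⊕ B))) (hp : ∀ t ∈ p, t.2 ∈ W) :
    ‖evP f g p (η []) - ES2_vec η p‖ ≤
      (p.map (fun t => ‖t.1‖ * (t.2.length * R ^ t.2.length))).sum * κ := by
  induction p with
  | nil => simp [ES2_vec, evP]
  | cons t p ih =>
    have h1 := ih (fun s hs => hp s (List.mem_cons_of_mem _ hs))
    have h2 := est_word f g W hW η R κ hR hκ hb h t.2 (hp t List.mem_cons_self)
    rw [ES2_vec_cons, ES2_evP_cons, List.map_cons, List.sum_cons]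
    have h3 : (t.1 • evW f g t.2 + evP f g p) (η []) - (t.1 • η t.2 + ES2_vec η p) =
        t.1 • (evW f g t.2 (η []) - η t.2) + (evP f g p (η []) - ES2_vec η p) := by
      rw [ContinuousLinearMap.add_apply, ContinuousLinearMap.smul_apply, smul_sub]
      abel
    rw [h3, add_mul]
    refine (norm_add_le _ _).trans (add_le_add ?_ h1)
    rw [norm_smul, mul_assoc]
    exact mul_le_mul_of_nonneg_left h2 (norm_nonneg _)

private lemma ES2_sq (x : H) (a κ : ℝ) (h : ‖⟪x, x⟫_ℂ - (a : ℂ)‖ ≤ κ) : |‖x‖ ^ 2 - a| ≤ κ := by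
  have h1 : ⟪x, x⟫_ℂ = ((‖x‖ ^ 2 : ℝ) : ℂ) := by
    rw [inner_self_eq_norm_sq_to_K]
    push_cast
    rfl
  rw [h1, ← Complex.ofReal_sub, Complex.norm_real, Real.norm_eq_abs] at h
  exact h

/-- Module ES2: polynomials: for every `ε > 0` there is `κ > 0` (depending on `p`, `R` only) that
makes the norm of `p` at least `‖evP i j p‖ - ε`. Uses `est_word`,
`‖∑ c_t η_t‖^2 = ∑ ∑ conj c_t c_t' ⟪η_t, η_t'⟫ ≈ φ (x^* x) = ‖x‖^2`, `‖η []‖^2 ≈ 1`. -/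
theorem est_poly [CStarAlgebra A] [CStarAlgebra B] [CStarAlgebra C] (i : A →⋆ₐ[ℂ] C)
    (j : B →⋆ₐ[ℂ] C) (p : List (ℂ × List (A ⊕ B))) (φ : C →L[ℂ] ℂ) (h1 : φ 1 = 1)
    (hx : φ (star (evP i j p) * evP i j p) = ((‖evP i j p‖ ^ 2 : ℝ) : ℂ))
    (W : Set (List (A ⊕ B))) (hW : ∀ y w, (y :: w) ∈ W → w ∈ W) (hnil : [] ∈ W)
    (hp : ∀ t ∈ p, t.2 ∈ W) (R : ℝ) (hR : 1 ≤ R) (ε : ℝ) (hε : 0 < ε) :
    ∃ κ : ℝ, 0 < κ ∧ ∀ (f : A → L) (g : B → L) (η : List (A ⊕ B) → H),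
      (∀ y w, (y :: w) ∈ W → ‖Sum.elim f g y‖ ≤ R) →
      (∀ y w, (y :: w) ∈ W → ‖(Sum.elim f g y) (η w) - η (y :: w)‖ ≤ κ) →
      (∀ w ∈ W, ∀ w' ∈ W,
        ‖⟪η w, η w'⟫_ℂ - φ (star (evW i j w) * evW i j w')‖ ≤ κ) →
      ‖evP i j p‖ - ε ≤ ‖evP f g p‖ := by
  obtain ⟨D, hD⟩ : ∃ D : ℝ, D = ‖evP i j p‖ := ⟨_, rfl⟩
  obtain ⟨K1, hK1⟩ : ∃ K : ℝ, K = (p.map (fun t => ‖t.1‖ * (t.2.length * R ^ t.2.length))).sum :=
    ⟨_, rfl⟩
  obtain ⟨K2, hK2⟩ : ∃ K : ℝ, K = (p.map (fun t => ‖t.1‖)).sum := ⟨_, rfl⟩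
  have hD0 : 0 ≤ D := by rw [hD]; exact norm_nonneg _
  have hR0 : 0 ≤ R := by linarith
  have hK10 : 0 ≤ K1 := by
    rw [hK1]
    refine List.sum_nonneg ?_
    intro x hx
    obtain ⟨t, _, rfl⟩ := List.mem_map.1 hx
    positivity
  have hK20 : 0 ≤ K2 := by
    rw [hK2]
    refine List.sum_nonneg ?_
    intro x hx
    obtain ⟨t, _, rfl⟩ := List.mem_map.1 hx
    positivity
  have hp1 : 0 < ε / (2 * (D + K1 + 1)) := by positivity
  have hp2 : 0 < ε ^ 2 / (2 * (K2 * K2 + 1)) := by positivity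
  refine ⟨min (ε / (2 * (D + K1 + 1))) (ε ^ 2 / (2 * (K2 * K2 + 1))), lt_min hp1 hp2, ?_⟩
  intro f g η hb hs hg
  obtain ⟨κ, hκ⟩ : ∃ κ : ℝ, κ = min (ε / (2 * (D + K1 + 1))) (ε ^ 2 / (2 * (K2 * K2 + 1))) :=
    ⟨_, rfl⟩
  rw [← hκ] at hs hg
  have hκ0 : 0 < κ := by rw [hκ]; exact lt_min hp1 hp2
  have hκ1 : κ * (2 * (D + K1 + 1)) ≤ ε := by
    have : κ ≤ ε / (2 * (D + K1 + 1)) := by rw [hκ]; exact min_le_left _ _
    rwa [le_div_iff₀ (by positivity)] at this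
  have hκ2 : κ * (2 * (K2 * K2 + 1)) ≤ ε ^ 2 := by
    have : κ ≤ ε ^ 2 / (2 * (K2 * K2 + 1)) := by rw [hκ]; exact min_le_right _ _
    rwa [le_div_iff₀ (by positivity)] at this
  have hA := ES2_c f g W hW η R κ hR hκ0.le hb hs p hp
  have hB := ES2_b i j φ W κ η hg p p hp hp
  have hC := hg [] hnil [] hnil
  rw [← hK1] at hA
  rw [hx, ← hK2, ← hD] at hB
  have hC1 : ‖η []‖ ^ 2 ≤ 1 + κ := by
    have e1 : evW (⇑i) (⇑j) ([] : List (A ⊕ B)) = (1 : C) := by simp [evW]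
    rw [e1, star_one, one_mul, h1] at hC
    have h4 : |‖η []‖ ^ 2 - 1| ≤ κ := by
      refine ES2_sq (η []) 1 κ ?_
      rw [Complex.ofReal_one]
      exact hC
    linarith [(abs_le.1 h4).2]
  have hB1 : D ^ 2 - K2 * (K2 * κ) ≤ ‖ES2_vec η p‖ ^ 2 := by
    have h5 := ES2_sq _ _ _ hB
    linarith [(abs_le.1 h5).1]
  rw [← hD]
  by_contra hcon
  push Not at hcon
  have hψ0 : 0 ≤ ‖evP f g p‖ := norm_nonneg _
  have hDε : ε < D := by linarith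
  have hη : ‖η []‖ ≤ 1 + κ := by
    by_contra hc
    push Not at hc
    nlinarith [norm_nonneg (η [])]
  have hv : ‖ES2_vec η p‖ ≤ D - ε / 2 := by
    have h6 : ‖ES2_vec η p‖ ≤ ‖evP f g p (η [])‖ + K1 * κ := by
      have := norm_sub_norm_le (ES2_vec η p) (evP f g p (η []))
      rw [norm_sub_rev] at this
      linarith
    have h7 : ‖evP f g p (η [])‖ ≤ ‖evP f g p‖ * ‖η []‖ := ContinuousLinearMap.le_opNorm _ _
    have h8 : ‖evP f g p‖ * ‖η []‖ ≤ (D - ε) * (1 + κ) :=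
      mul_le_mul hcon.le hη (norm_nonneg _) (by linarith)
    nlinarith
  have h9 : ‖ES2_vec η p‖ ^ 2 ≤ (D - ε / 2) ^ 2 := by
    have := norm_nonneg (ES2_vec η p)
    gcongr
  nlinarith

end Vale.Agent.P083
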