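import Vale.Agent.P083.Defs

open scoped ENNReal Topology InnerProductSpace
open Filter

namespace Vale.Agent.P083

open Vale.Agent.P101K

variable {ω : Ultrafilter ℕ}

private theorem evt_W {A B : Type} (f : A → Bdd O2) (g : B → Bdd O2) (w : List (A ⊕ B)) :
    evW (fun a => omk O2 ω (f a)) (fun b => omk O2 ω (g b)) w = omk O2 ω (evW f g w) := by
  induction w with
  | nil => simp [evW]
  | cons x w ih =>
    have h1 : evW (fun a => omk O2 ω (f a)) (fun b => omk O2 ω (g b)) (x :: w) =
        Sum.elim (fun a => omk O2 ω (f a)) (fun b => omk O2 ω (g b)) x *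
          evW (fun a => omk O2 ω (f a)) (fun b => omk O2 ω (g b)) w := by
      simp [evW]
    have h2 : evW f g (x :: w) = Sum.elim f g x * evW f g w := by
      simp [evW]
    rw [h1, h2, map_mul, ih]
    cases x <;> rfl

private theorem evt_P {A B : Type} (f : A → Bdd O2) (g : B → Bdd O2)
    (p : List (ℂ × List (A ⊕ B))) :
    evP (fun a => omk O2 ω (f a)) (fun b => omk O2 ω (g b)) p = omk O2 ω (evP f g p) := by
  induction p with
  | nil => simp [evP]
  | cons x p ih =>
    have h1 : evP (fun a => omk O2 ω (f a)) (fun b => omk O2 ω (g b)) (x :: p) =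
        x.1 • evW (fun a => omk O2 ω (f a)) (fun b => omk O2 ω (g b)) x.2 +
          evP (fun a => omk O2 ω (f a)) (fun b => omk O2 ω (g b)) p := by
      simp [evP]
    have h2 : evP f g (x :: p) = x.1 • evW f g x.2 + evP f g p := by
      simp [evP]
    rw [h1, h2, map_add, map_smul, ih, evt_W]

private theorem evt_Wn {A B : Type} (f : A → Bdd O2) (g : B → Bdd O2) (n : ℕ)
    (w : List (A ⊕ B)) :
    evW (fun a => f a n) (fun b => g b n) w = (evW f g w) n := by
  induction w with
  | nil => rfl
  | cons x w ih =>
    have h1 : evW (fun a => f a n) (fun b => g b n) (x :: w) =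
        Sum.elim (fun a => f a n) (fun b => g b n) x *
          evW (fun a => f a n) (fun b => g b n) w := by
      simp [evW]
    have h2 : evW f g (x :: w) = Sum.elim f g x * evW f g w := by
      simp [evW]
    rw [h1, h2, aom_mul_apply, ih]
    cases x <;> rfl

private theorem evt_Pn {A B : Type} (f : A → Bdd O2) (g : B → Bdd O2) (n : ℕ)
    (p : List (ℂ × List (A ⊕ B))) :
    evP (fun a => f a n) (fun b => g b n) p = (evP f g p) n := by
  induction p with
  | nil => rfl
  | cons x p ih =>
    have h1 : evP (fun a => f a n) (fun b => g b n) (x :: p) =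
        x.1 • evW (fun a => f a n) (fun b => g b n) x.2 +
          evP (fun a => f a n) (fun b => g b n) p := by
      simp [evP]
    have h2 : evP f g (x :: p) = x.1 • evW f g x.2 + evP f g p := by
      simp [evP]
    rw [h1, h2, aom_add_apply, aom_smul_apply, ih, evt_Wn]

/-- Module EV: norms of polynomials in the ultrapower -/
theorem evP_tendsto {A B : Type} (f : A → Bdd O2) (g : B → Bdd O2)
    (p : List (ℂ × List (A ⊕ B))) :
    Tendsto (fun n => ‖evP (fun a => f a n) (fun b => g b n) p‖) ω
      (𝓝 ‖evP (fun a => omk O2 ω (f a)) (fun b => omk O2 ω (g b)) p‖) := by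
  rw [evt_P]
  have h := omk_norm O2 ω (evP f g p)
  refine h.congr fun n => ?_
  rw [evt_Pn]

end Vale.Agent.P083
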