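import Vale.Agent.P083.Defs

open scoped ENNReal Topology InnerProductSpace
open Filter

namespace Vale.Agent.P083

open Vale.Agent.P101K

theorem FD_core {E F : Type*} [NormedAddCommGroup E] [InnerProductSpace ℂ E]
    [FiniteDimensional ℂ E] [AddCommGroup F] [Module ℂ F] (f g : F →ₗ[ℂ] E)
    (h : ∀ c, ‖f c‖ = ‖g c‖) : ∃ V : E →ₗᵢ[ℂ] E, ∀ c, V (f c) = g c := by
  obtain ⟨r, hr⟩ := f.rangeRestrict.exists_rightInverse_of_surjective f.range_rangeRestrict
  have hr' : ∀ v : LinearMap.range f, f (r v) = v := by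
    intro v
    have := LinearMap.congr_fun hr v
    exact congrArg Subtype.val this
  let L : LinearMap.range f →ₗᵢ[ℂ] E :=
    { toLinearMap := g ∘ₗ r
      norm_map' := fun v => by
        change ‖g (r v)‖ = ‖v‖
        rw [← h, hr']
        rfl }
  refine ⟨L.extend, fun c => ?_⟩
  have h1 : L.extend (f c) = L ⟨f c, LinearMap.mem_range_self f c⟩ :=
    L.extend_apply ⟨f c, LinearMap.mem_range_self f c⟩
  rw [h1]
  change g (r ⟨f c, LinearMap.mem_range_self f c⟩) = g c
  rw [← sub_eq_zero, ← map_sub, ← norm_eq_zero, ← h, map_sub, hr', sub_self, norm_zero]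

theorem FD_inner {N : ℕ} (u v : Fin N → ℂ) :
    ⟪(WithLp.toLp 2 u : EuclideanSpace ℂ (Fin N)), WithLp.toLp 2 v⟫_ℂ = ∑ k, star (u k) * v k := by
  rw [PiLp.inner_apply]
  refine Finset.sum_congr rfl fun k _ => ?_
  simp [mul_comm]

/-- Module FD: two families with the same Gram matrix in a finite-dimensional space are conjugate
by a unitary matrix (Mathlib `LinearIsometry.extend`: isometry between the spans) -/
theorem fd_unitary (N m : ℕ) (x y : Fin m → Fin N → ℂ)
    (h : ∀ i j, ∑ k, star (x i k) * x j k = ∑ k, star (y i k) * y j k) :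
    ∃ V ∈ Matrix.unitaryGroup (Fin N) ℂ, ∀ j k, ∑ l, V k l * x j l = y j k := by
  let X : Fin m → EuclideanSpace ℂ (Fin N) := fun j => WithLp.toLp 2 (x j)
  let Y : Fin m → EuclideanSpace ℂ (Fin N) := fun j => WithLp.toLp 2 (y j)
  let f : (Fin m → ℂ) →ₗ[ℂ] EuclideanSpace ℂ (Fin N) := Fintype.linearCombination ℂ X
  let g : (Fin m → ℂ) →ₗ[ℂ] EuclideanSpace ℂ (Fin N) := Fintype.linearCombination ℂ Y
  have hf : ∀ c, f c = ∑ j, c j • X j := fun c => Fintype.linearCombination_apply ℂ X c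
  have hg : ∀ c, g c = ∑ j, c j • Y j := fun c => Fintype.linearCombination_apply ℂ Y c
  have hXY : ∀ i j, ⟪X i, X j⟫_ℂ = ⟪Y i, Y j⟫_ℂ := by
    intro i j
    rw [FD_inner, FD_inner]
    exact h i j
  have hn : ∀ c, ‖f c‖ = ‖g c‖ := by
    intro c
    have h1 : ⟪f c, f c⟫_ℂ = ⟪g c, g c⟫_ℂ := by
      rw [hf, hg]
      simp only [sum_inner, inner_sum, inner_smul_left, inner_smul_right, hXY]
    rw [inner_self_eq_norm_sq_to_K, inner_self_eq_norm_sq_to_K] at h1
    have h2 : ‖f c‖ ^ 2 = ‖g c‖ ^ 2 := by exact_mod_cast h1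
    exact (pow_left_inj₀ (norm_nonneg _) (norm_nonneg _) two_ne_zero).1 h2
  obtain ⟨V, hV⟩ := FD_core f g hn
  have hVX : ∀ j, V (X j) = Y j := by
    intro j
    have := hV (Pi.single j 1)
    rw [hf, hg, Finset.sum_eq_single j, Finset.sum_eq_single j] at this
    · simpa using this
    · intro i _ hij
      rw [Pi.single_eq_of_ne hij, zero_smul]
    · intro h
      exact absurd (Finset.mem_univ _) h
    · intro i _ hij
      rw [Pi.single_eq_of_ne hij, zero_smul]
    · intro h
      exact absurd (Finset.mem_univ _) h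
  let M : Matrix (Fin N) (Fin N) ℂ := Matrix.of fun k l => V (EuclideanSpace.single l (1 : ℂ)) k
  refine ⟨M, ?_, ?_⟩
  · rw [Matrix.mem_unitaryGroup_iff']
    ext l l'
    rw [Matrix.mul_apply]
    have h1 : ⟪V (EuclideanSpace.single l (1 : ℂ)), V (EuclideanSpace.single l' (1 : ℂ))⟫_ℂ =
        ⟪(EuclideanSpace.single l (1 : ℂ) : EuclideanSpace ℂ (Fin N)),
          EuclideanSpace.single l' (1 : ℂ)⟫_ℂ := V.inner_map_map _ _
    rw [PiLp.inner_apply] at h1
    have h2 : ∑ k, (star M) l k * M k l' =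
        ∑ k, ⟪V (EuclideanSpace.single l (1 : ℂ)) k, V (EuclideanSpace.single l' (1 : ℂ)) k⟫_ℂ := by
      refine Finset.sum_congr rfl fun k _ => ?_
      simp [M, Matrix.star_apply, mul_comm]
    rw [h2, h1, EuclideanSpace.inner_single_left, Matrix.one_apply]
    simp
  · intro j k
    have h1 : X j = ∑ l, x j l • (EuclideanSpace.single l (1 : ℂ) : EuclideanSpace ℂ (Fin N)) := by
      ext i
      simp [X, Pi.single_apply]
    have h2 : V (X j) k = ∑ l, x j l * V (EuclideanSpace.single l (1 : ℂ)) k := by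
      rw [h1, map_sum]
      simp
    rw [hVX] at h2
    have h3 : Y j k = y j k := rfl
    rw [h3] at h2
    rw [h2]
    refine Finset.sum_congr rfl fun l _ => ?_
    exact mul_comm _ _

end Vale.Agent.P083
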