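import Vale.Agent.P083.Defs

open scoped ENNReal Topology InnerProductSpace
open Filter

namespace Vale.Agent.P083

open Vale.Agent.P101K

variable {ω : Ultrafilter ℕ}

theorem FU_lift {B C D : Type} [CStarAlgebra B] [CStarAlgebra C] [CStarAlgebra D]
    (π : B →⋆ₐ[ℂ] C) (hs : Function.Surjective π) (ψ : B →⋆ₐ[ℂ] D)
    (hk : ∀ a, π a = 0 → ψ a = 0) : ∃ Φ : C →⋆ₐ[ℂ] D, ∀ a, Φ (π a) = ψ a := by
  let F : C → D := fun x => ψ (Function.surjInv hs x)
  have key : ∀ a : B, F (π a) = ψ a := fun a => by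
    have h1 : π (Function.surjInv hs (π a)) = π a := Function.surjInv_eq hs _
    have h2 : ψ (Function.surjInv hs (π a) - a) = 0 := hk _ (by rw [map_sub, h1, sub_self])
    rw [map_sub] at h2
    exact sub_eq_zero.1 h2
  refine ⟨{ toFun := F, map_one' := ?_, map_mul' := ?_, map_zero' := ?_, map_add' := ?_,
            commutes' := ?_, map_star' := ?_ }, fun a => key a⟩
  · have := key 1
    rwa [map_one, map_one] at this
  · intro x y
    obtain ⟨a, rfl⟩ := hs x
    obtain ⟨b, rfl⟩ := hs y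
    rw [← map_mul, key, key, key, map_mul]
  · have := key 0
    rwa [map_zero, map_zero] at this
  · intro x y
    obtain ⟨a, rfl⟩ := hs x
    obtain ⟨b, rfl⟩ := hs y
    show F _ = F _ + F _
    rw [← map_add, key, key, key, map_add]
  · intro c
    have := key (algebraMap ℂ B c)
    rwa [AlgHomClass.commutes, AlgHomClass.commutes] at this
  · intro x
    obtain ⟨a, rfl⟩ := hs x
    show F _ = star (F _)
    rw [← map_star, key, key, map_star]

theorem FU_bound (φ : ℕ → (O2 →⋆ₐ[ℂ] O2)) (n : ℕ) (x : O2) : ‖φ n x‖ ≤ ‖x‖ :=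
  NonUnitalStarAlgHom.norm_apply_le (φ n) x

/-- the induced map on bounded sequences -/
noncomputable def FU_seq (φ : ℕ → (O2 →⋆ₐ[ℂ] O2)) (a : Bdd O2) : Bdd O2 :=
  ⟨fun n => φ n (a n), memℓp_infty ⟨‖a‖, by
    rintro _ ⟨n, rfl⟩
    exact (FU_bound φ n (a n)).trans (aom_apply_le a n)⟩⟩

/-- the induced map on bounded sequences, as a *-homomorphism -/
noncomputable def FU_hom (φ : ℕ → (O2 →⋆ₐ[ℂ] O2)) : Bdd O2 →⋆ₐ[ℂ] Bdd O2 where
  toFun := FU_seq φ
  map_one' := by
    apply lp.ext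
    funext n
    exact map_one (φ n)
  map_mul' a b := by
    apply lp.ext
    funext n
    exact map_mul (φ n) (a n) (b n)
  map_zero' := by
    apply lp.ext
    funext n
    exact map_zero (φ n)
  map_add' a b := by
    apply lp.ext
    funext n
    exact map_add (φ n) (a n) (b n)
  commutes' c := by
    apply lp.ext
    funext n
    exact AlgHomClass.commutes (φ n) c
  map_star' a := by
    apply lp.ext
    funext n
    exact map_star (φ n) (a n)

theorem FU_zero (φ : ℕ → (O2 →⋆ₐ[ℂ] O2)) (a : Bdd O2) (h : omk O2 ω a = 0) :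
    omk O2 ω (FU_hom φ a) = 0 := by
  have h1 := omk_norm O2 ω a
  rw [h, norm_zero] at h1
  have h2 := omk_norm O2 ω (FU_hom φ a)
  have h3 : Tendsto (fun n => ‖(FU_hom φ a) n‖) ω (𝓝 0) :=
    squeeze_zero (fun n => norm_nonneg _) (fun n => FU_bound φ n (a n)) h1
  exact norm_eq_zero.1 (tendsto_nhds_unique h2 h3)

/-- Module FU: a sequence of unital *-endomorphisms of `O2` acts on the ultrapower -/
theorem fun_hom (φ : ℕ → (O2 →⋆ₐ[ℂ] O2)) :
    ∃ Φ : Aom O2 ω →⋆ₐ[ℂ] Aom O2 ω, ∀ a : Bdd O2, ∃ b : Bdd O2,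
      (∀ n, b n = φ n (a n)) ∧ Φ (omk O2 ω a) = omk O2 ω b := by
  obtain ⟨Φ, hΦ⟩ := FU_lift (omk O2 ω) (omk_surjective O2 ω) ((omk O2 ω).comp (FU_hom φ))
    (fun a h => FU_zero φ a h)
  exact ⟨Φ, fun a => ⟨FU_hom φ a, fun n => rfl, hΦ a⟩⟩

end Vale.Agent.P083
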