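import Vale.Agent.P083.Defs

open scoped ENNReal Topology InnerProductSpace
open Filter TopologicalSpace

namespace Vale.Agent.P083

open Vale.Agent.P101K

theorem SEPC_monoid {C : Type} [Monoid C] [TopologicalSpace C] [ContinuousMul C] {S : Set C}
    (hS : IsSeparable S) : IsSeparable ((Submonoid.closure S : Submonoid C) : Set C) := by
  have hP : ∀ n : ℕ, IsSeparable
      {x : C | ∃ l : List C, l.length = n ∧ (∀ y ∈ l, y ∈ S) ∧ l.prod = x} := by
    intro n
    induction n with
    | zero =>
      refine (Set.countable_singleton (1 : C)).isSeparable.mono ?_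
      rintro x ⟨l, hl, _, rfl⟩
      rw [List.length_eq_zero_iff.1 hl]
      simp
    | succ n ih =>
      refine ((hS.prod ih).image continuous_mul).mono ?_
      rintro x ⟨l, hl, hS', rfl⟩
      cases l with
      | nil => simp at hl
      | cons y l =>
        exact ⟨(y, l.prod), ⟨hS' y (by simp), l, by simpa using hl,
          fun z hz => hS' z (List.mem_cons_of_mem _ hz), rfl⟩, by simp⟩
  refine (IsSeparable.iUnion hP).mono ?_
  intro x hx
  obtain ⟨l, hl, rfl⟩ := Submonoid.exists_list_of_mem_closure hx
  exact Set.mem_iUnion.2 ⟨l.length, l, rfl, hl, rfl⟩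

/-- Module SEPC: a C*-algebra generated by two separable images is separable. The values
`evP (i ∘ da) (j ∘ db) p` for polynomials with letters in countable dense sequences `da`, `db` and
coefficients in a countable dense set of complex numbers are countable; their closure is a closed
star subalgebra (as a set: closure of the set of all values) containing both images. See the proof of
`exists_polys` in `Dens.lean` for the density of all polynomials. -/
theorem separable_of_gen {A B C : Type} [CStarAlgebra A] [CStarAlgebra B] [CStarAlgebra C]
    [SeparableSpace A] [SeparableSpace B] (i : A →⋆ₐ[ℂ] C) (j : B →⋆ₐ[ℂ] C)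
    (hgen : (StarAlgebra.adjoin ℂ (Set.range i ∪ Set.range j)).topologicalClosure = ⊤) :
    SeparableSpace C := by
  have hstar : star (Set.range i ∪ Set.range j) ⊆ Set.range i ∪ Set.range j := by
    intro x hx
    rcases Set.mem_star.1 hx with ⟨a, ha⟩ | ⟨b, hb⟩
    · exact Or.inl ⟨star a, by rw [map_star, ha, star_star]⟩
    · exact Or.inr ⟨star b, by rw [map_star, hb, star_star]⟩
  have hci : Continuous i := AddMonoidHomClass.continuous_of_bound i 1 fun a => by
    simpa using NonUnitalStarAlgHom.norm_apply_le i a
  have hcj : Continuous j := AddMonoidHomClass.continuous_of_bound j 1 fun a => by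
    simpa using NonUnitalStarAlgHom.norm_apply_le j a
  have hS : IsSeparable (Set.range i ∪ Set.range j) :=
    (isSeparable_range hci).union (isSeparable_range hcj)
  have hspan : IsSeparable ((Submodule.span ℂ
      ((Submonoid.closure (Set.range i ∪ Set.range j) : Submonoid C) : Set C) :
        Submodule ℂ C) : Set C) := (SEPC_monoid hS).span
  have hsub : ((StarAlgebra.adjoin ℂ (Set.range i ∪ Set.range j) : StarSubalgebra ℂ C) : Set C) ⊆
      ((Submodule.span ℂ
      ((Submonoid.closure (Set.range i ∪ Set.range j) : Submonoid C) : Set C) :
        Submodule ℂ C) : Set C) := by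
    intro x hx
    have h1 : x ∈ Algebra.adjoin ℂ ((Set.range i ∪ Set.range j) ∪
        star (Set.range i ∪ Set.range j)) := by
      rw [← StarAlgebra.adjoin_toSubalgebra]
      exact hx
    rw [Set.union_eq_self_of_subset_right hstar] at h1
    have h2 : x ∈ Submodule.span ℂ
        ((Submonoid.closure (Set.range i ∪ Set.range j) : Submonoid C) : Set C) := by
      rw [← Algebra.adjoin_eq_span]
      exact h1
    exact h2
  have hadj := hspan.mono hsub
  have h1 : closure ((StarAlgebra.adjoin ℂ (Set.range i ∪ Set.range j) :
        StarSubalgebra ℂ C) : Set C) = Set.univ := by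
    rw [← StarSubalgebra.topologicalClosure_coe, hgen]
    rfl
  have h2 : IsSeparable (Set.univ : Set C) := by
    rw [← h1]
    exact hadj.closure
  exact isSeparable_univ_iff.1 h2

end Vale.Agent.P083
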