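import Vale.Agent.P083.Key
import Vale.Agent.P083.CombB
import Vale.Agent.P083.FunA
import Vale.Agent.P083.EvT
import Vale.Agent.P083.Dens
import Vale.Agent.P083.Diag
import Vale.Agent.P083.SepC

open scoped ENNReal Topology InnerProductSpace
open Filter TopologicalSpace

namespace Vale.Agent.P083

open Vale.Agent.P101K

variable {ω : Ultrafilter ℕ} {A B C : Type} [CStarAlgebra A] [CStarAlgebra B] [CStarAlgebra C]

theorem keyloc {α : A →⋆ₐ[ℂ] Aom O2 ω} {β : B →⋆ₐ[ℂ] Aom O2 ω} (hα : Function.Injective α)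
    (hβ : Function.Injective β) (lA : Lift ω α) (lB : Lift ω β) [Nontrivial C]
    (i : A →⋆ₐ[ℂ] C) (j : B →⋆ₐ[ℂ] C) (p : ℕ → List (ℂ × List (A ⊕ B))) (k : ℕ) :
    ∀ᶠ n in (ω : Filter ℕ), ∃ x : (O2 →⋆ₐ[ℂ] O2) × (O2 →⋆ₐ[ℂ] O2), ∀ m ≤ k,
      ‖evP i j (p m)‖ - 1 / ((k : ℝ) + 1) ≤
        ‖evP (fun a => x.1 (lA.seq a n)) (fun b => x.2 (lB.seq b n)) (p m)‖ := by
  classical
  have h : ∀ᶠ n in (ω : Filter ℕ), ∀ m ∈ Finset.range (k + 1), ∃ Φ Ψ : O2 →⋆ₐ[ℂ] O2,
      ‖evP i j (p m)‖ - 1 / ((k : ℝ) + 1) ≤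
        ‖evP (fun a => Φ (lA.seq a n)) (fun b => Ψ (lB.seq b n)) (p m)‖ := by
    rw [Finset.eventually_all]
    intro m _
    exact key hα hβ lA lB i j (p m) _ (by positivity)
  filter_upwards [h] with n hn
  have h1 : ∀ t : Fin (2 ^ (k + 1)), ∃ Φ Ψ : O2 →⋆ₐ[ℂ] O2, (t : ℕ) ≤ k →
      ‖evP i j (p t)‖ - 1 / ((k : ℝ) + 1) ≤
        ‖evP (fun a => Φ (lA.seq a n)) (fun b => Ψ (lB.seq b n)) (p t)‖ := by
    intro t
    by_cases ht : (t : ℕ) ≤ k
    · obtain ⟨Φ, Ψ, h2⟩ := hn t (Finset.mem_range.2 (by omega))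
      exact ⟨Φ, Ψ, fun _ => h2⟩
    · exact ⟨StarAlgHom.id ℂ O2, StarAlgHom.id ℂ O2, fun h2 => absurd h2 ht⟩
  choose φ ψ hφψ using h1
  obtain ⟨Φ, Ψ, hc⟩ := comb_evP (A := A) (B := B) (k + 1) φ ψ
  refine ⟨(Φ, Ψ), fun m hm => ?_⟩
  have hm2 : m < 2 ^ (k + 1) := lt_of_le_of_lt hm (lt_of_lt_of_le (Nat.lt_succ_self k)
    (Nat.lt_two_pow_self).le)
  exact (hφψ ⟨m, hm2⟩ hm).trans (hc (fun a => lA.seq a n) (fun b => lB.seq b n) (p m) ⟨m, hm2⟩)

theorem exists_lift (α : A →⋆ₐ[ℂ] Aom O2 ω) : Nonempty (Lift ω α) := by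
  have h := fun a => omk_surjective O2 ω (α a)
  choose s hs using h
  exact ⟨⟨s, hs⟩⟩

theorem nontrivial_aom : Nontrivial (Aom O2 ω) := by
  refine ⟨1, 0, fun h => ?_⟩
  have h1 := omk_norm O2 ω 1
  rw [map_one, h, norm_zero] at h1
  have h2 : (fun n => ‖((1 : Bdd O2) n)‖) = fun _ => (1 : ℝ) := by
    funext n
    have : ((1 : Bdd O2) n) = (1 : O2) := rfl
    rw [this]
    exact norm_one
  rw [h2] at h1
  exact one_ne_zero (tendsto_nhds_unique tendsto_const_nhds h1)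

theorem main (hω : (ω : Filter ℕ) ≤ atTop) [SeparableSpace A] [SeparableSpace B]
    (i : A →⋆ₐ[ℂ] C) (j : B →⋆ₐ[ℂ] C) (hfree : IsFreeProduct i j)
    (hA : Embeds ω A) (hB : Embeds ω B) : Embeds ω C := by
  obtain ⟨α, hα⟩ := hA
  obtain ⟨β, hβ⟩ := hB
  obtain ⟨lA⟩ := exists_lift α
  obtain ⟨lB⟩ := exists_lift β
  have _ : SeparableSpace C := separable_of_gen i j hfree.gen
  have hnt : Nontrivial (Aom O2 ω) := nontrivial_aom
  have _ : Nontrivial C := by
    obtain ⟨h, _, _⟩ := hfree.univ _ α β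
    refine ⟨1, 0, fun h0 => ?_⟩
    have h1 := congrArg h h0
    rw [map_one, map_zero] at h1
    exact one_ne_zero h1
  obtain ⟨p, hp⟩ := exists_polys i j hfree.gen
  obtain ⟨x, hx⟩ := diag (X := (O2 →⋆ₐ[ℂ] O2) × (O2 →⋆ₐ[ℂ] O2)) ω hω
    (fun k n x => ∀ m ≤ k, ‖evP i j (p m)‖ - 1 / ((k : ℝ) + 1) ≤
        ‖evP (fun a => x.1 (lA.seq a n)) (fun b => x.2 (lB.seq b n)) (p m)‖)
    (fun k k' n x hkk h m hm => by
      have h1 := h m (hm.trans hkk)
      have h2 : 1 / ((k' : ℝ) + 1) ≤ 1 / ((k : ℝ) + 1) := by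
        apply one_div_le_one_div_of_le (by positivity)
        have : (k : ℝ) ≤ k' := by exact_mod_cast hkk
        linarith
      linarith)
    (fun k => keyloc hα hβ lA lB i j p k)
  obtain ⟨Φ, hΦ⟩ := fun_hom (ω := ω) (fun n => (x n).1)
  obtain ⟨Ψ, hΨ⟩ := fun_hom (ω := ω) (fun n => (x n).2)
  obtain ⟨h, hhA, hhB⟩ := hfree.univ _ (Φ.comp α) (Ψ.comp β)
  -- representing sequences
  choose fA hfA1 hfA2 using fun a => hΦ (lA.seq a)
  choose fB hfB1 hfB2 using fun b => hΨ (lB.seq b)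
  have hev : ∀ m, h (evP i j (p m)) =
      evP (fun a => omk O2 ω (fA a)) (fun b => omk O2 ω (fB b)) (p m) := by
    intro m
    have hW : ∀ w : List (A ⊕ B), h (evW i j w) =
        evW (fun a => omk O2 ω (fA a)) (fun b => omk O2 ω (fB b)) w := by
      intro w
      induction w with
      | nil => simp [evW]
      | cons y w ih =>
        have e1 : evW i j (y :: w) = Sum.elim i j y * evW i j w := by simp [evW]
        have e2 : evW (fun a => omk O2 ω (fA a)) (fun b => omk O2 ω (fB b)) (y :: w) =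
            Sum.elim (fun a => omk O2 ω (fA a)) (fun b => omk O2 ω (fB b)) y *
            evW (fun a => omk O2 ω (fA a)) (fun b => omk O2 ω (fB b)) w := by simp [evW]
        rw [e1, e2, map_mul, ih]
        congr 1
        rcases y with a | b
        · show h (i a) = omk O2 ω (fA a)
          rw [hhA, ← hfA2, lA.spec]
          rfl
        · show h (j b) = omk O2 ω (fB b)
          rw [hhB, ← hfB2, lB.spec]
          rfl
    generalize p m = pm
    induction pm with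
    | nil => simp [evP]
    | cons t pm ih =>
      have e1 : evP i j (t :: pm) = t.1 • evW i j t.2 + evP i j pm := by simp [evP]
      have e2 : evP (fun a => omk O2 ω (fA a)) (fun b => omk O2 ω (fB b)) (t :: pm) =
          t.1 • evW (fun a => omk O2 ω (fA a)) (fun b => omk O2 ω (fB b)) t.2 +
          evP (fun a => omk O2 ω (fA a)) (fun b => omk O2 ω (fB b)) pm := by simp [evP]
      rw [e1, e2, map_add, map_smul, ih, hW]
  have hnorm : ∀ m, ‖evP i j (p m)‖ ≤ ‖h (evP i j (p m))‖ := by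
    intro m
    rw [hev m]
    have ht := evP_tendsto (ω := ω) fA fB (p m)
    have hk : ∀ k : ℕ, m ≤ k → ‖evP i j (p m)‖ - 1 / ((k : ℝ) + 1) ≤
        ‖evP (fun a => omk O2 ω (fA a)) (fun b => omk O2 ω (fB b)) (p m)‖ := by
      intro k hmk
      refine ge_of_tendsto ht ?_
      filter_upwards [hx k] with n hn
      have h1 := hn m hmk
      have h2 : (fun a => fA a n) = fun a => (x n).1 (lA.seq a n) := by
        funext a
        exact hfA1 a n
      have h3 : (fun b => fB b n) = fun b => (x n).2 (lB.seq b n) := by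
        funext b
        exact hfB1 b n
      rw [h2, h3]
      exact h1
    refine le_of_forall_pos_le_add fun ε hε => ?_
    obtain ⟨k, hk2⟩ := exists_nat_one_div_lt hε
    have h3 := hk (max k m) (le_max_right _ _)
    have h4 : 1 / (((max k m : ℕ) : ℝ) + 1) ≤ 1 / ((k : ℝ) + 1) := by
      apply one_div_le_one_div_of_le (by positivity)
      have : (k : ℝ) ≤ ((max k m : ℕ) : ℝ) := by exact_mod_cast le_max_left _ _
      linarith
    linarith
  have hall : ∀ y : C, ‖y‖ ≤ ‖h y‖ := by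
    have hcl : IsClosed {y : C | ‖y‖ ≤ ‖h y‖} := by
      have hc : Continuous h := by
        refine (AddMonoidHomClass.continuous_of_bound h 1 fun y => ?_)
        rw [one_mul]
        exact NonUnitalStarAlgHom.norm_apply_le h y
      exact isClosed_le continuous_norm hc.norm
    intro y
    have := hp.closure_range
    have hy : y ∈ closure (Set.range fun k => evP i j (p k)) := by
      rw [this]; trivial
    exact closure_minimal (by rintro _ ⟨m, rfl⟩; exact hnorm m) hcl hy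
  refine ⟨h, fun y z hyz => ?_⟩
  have h1 := hall (y - z)
  rw [map_sub, hyz, sub_self, norm_zero] at h1
  exact sub_eq_zero.1 (norm_le_zero_iff.1 h1)

end Vale.Agent.P083
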