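import Vale.Agent.P083.Shift

open scoped ENNReal Topology InnerProductSpace
open Filter

namespace Vale.Agent.P083

open Vale.Agent.P101K

open scoped ComplexOrder MatrixOrder in
theorem GR_psd (m : ℕ) (D : Matrix (Fin m) (Fin m) ℂ) (hD : D.IsHermitian) (κ : ℝ)
    (hκ : ∀ i j, ‖D i j‖ ≤ κ) :
    ∃ B : Matrix (Fin m) (Fin m) ℂ,
      D + ((m * κ : ℝ) : ℂ) • (1 : Matrix (Fin m) (Fin m) ℂ) = B.conjTranspose * B := by
  suffices hpos : (D + ((m * κ : ℝ) : ℂ) • (1 : Matrix (Fin m) (Fin m) ℂ)).PosSemidef by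
    obtain ⟨B, hB⟩ := CStarAlgebra.nonneg_iff_eq_star_mul_self.mp hpos.nonneg
    exact ⟨B, hB⟩
  have hH : (D + ((m * κ : ℝ) : ℂ) • (1 : Matrix (Fin m) (Fin m) ℂ)).IsHermitian := by
    refine hD.add ?_
    unfold Matrix.IsHermitian
    rw [Matrix.conjTranspose_smul, Matrix.conjTranspose_one, Complex.star_def, Complex.conj_ofReal]
  refine Matrix.PosSemidef.of_dotProduct_mulVec_nonneg hH fun x => ?_
  have him := hH.im_star_dotProduct_mulVec_self x
  rw [Complex.nonneg_iff]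
  refine ⟨?_, him.symm⟩
  rw [Matrix.add_mulVec, Matrix.smul_mulVec, Matrix.one_mulVec, dotProduct_add, dotProduct_smul,
    Complex.add_re]
  have h1 : (((m * κ : ℝ) : ℂ) • (star x ⬝ᵥ x)).re = m * κ * ∑ i, ‖x i‖ ^ 2 := by
    have : star x ⬝ᵥ x = ((∑ i, ‖x i‖ ^ 2 : ℝ) : ℂ) := by
      unfold dotProduct
      push_cast
      refine Finset.sum_congr rfl fun i _ => ?_
      rw [Pi.star_apply]
      exact Complex.conj_mul' _
    rw [this, smul_eq_mul, ← Complex.ofReal_mul, Complex.ofReal_re]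
  have h2 : ‖star x ⬝ᵥ (D.mulVec x)‖ ≤ κ * (∑ i, ‖x i‖) ^ 2 := by
    unfold Matrix.mulVec dotProduct
    refine (norm_sum_le _ _).trans ?_
    rw [sq, Finset.sum_mul_sum, Finset.mul_sum]
    refine Finset.sum_le_sum fun i _ => ?_
    rw [norm_mul, Finset.mul_sum, Pi.star_apply, norm_star]
    refine (mul_le_mul_of_nonneg_left (norm_sum_le _ _) (norm_nonneg _)).trans ?_
    rw [Finset.mul_sum]
    refine Finset.sum_le_sum fun j _ => ?_
    rw [norm_mul]
    have := mul_le_mul_of_nonneg_right (hκ i j) (mul_nonneg (norm_nonneg (x i)) (norm_nonneg (x j)))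
    linarith
  have h3 : (∑ i, ‖x i‖) ^ 2 ≤ m * ∑ i, ‖x i‖ ^ 2 := by
    have := sq_sum_le_card_mul_sum_sq (s := Finset.univ) (f := fun i : Fin m => ‖x i‖)
    simpa using this
  have h4 : -‖star x ⬝ᵥ (D.mulVec x)‖ ≤ (star x ⬝ᵥ (D.mulVec x)).re :=
    (abs_le.1 (Complex.abs_re_le_norm _)).1
  rw [h1]
  rcases Nat.eq_zero_or_pos m with hm | hm
  · subst hm
    simp at *
  · have hκ0 : 0 ≤ κ := (norm_nonneg _).trans (hκ ⟨0, hm⟩ ⟨0, hm⟩)
    have := mul_le_mul_of_nonneg_left h3 hκ0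
    linarith

theorem GR_sum {M : Type} [AddCommMonoid M] (N m d n : ℕ) (hn : n = N + (m + d)) (F : ℕ → M)
    (hF : ∀ k, F (N + (m + k)) = 0) :
    ∑ k : Fin n, F k = ∑ k ∈ Finset.range N, F k + ∑ k : Fin m, F (N + k) := by
  rw [Fin.sum_univ_eq_sum_range F n, hn, Finset.sum_range_add, Finset.sum_range_add]
  congr 1
  rw [Finset.sum_eq_zero (s := Finset.range d) (fun k _ => hF k), add_zero]
  rw [← Fin.sum_univ_eq_sum_range (fun k => F (N + k)) m]

theorem GR_on : Orthonormal ℂ e := SH_orth _ Function.injective_id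

/-- truncation -/
theorem GR_trunc (f : H) : Tendsto (fun N => ∑ k ∈ Finset.range N, f k • e k) atTop (𝓝 f) := by
  have h1 := lp.hasSum_single (E := fun _ : ℕ => ℂ) (p := 2) (by norm_num) f
  have h2 : ∀ n, lp.single (E := fun _ : ℕ => ℂ) 2 n (f n) = f n • e n := by
    intro n
    unfold e
    rw [← lp.single_smul, smul_eq_mul, mul_one]
  simp only [h2] at h1
  exact h1.tendsto_sum_nat

/-- extension of the coordinates -/
noncomputable def GR_X (N m : ℕ) (f : ℕ → ℂ) (b : Fin m → ℂ) (k : ℕ) : ℂ :=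
  if k < N then f k else if h : k - N < m then b ⟨k - N, h⟩ else 0

theorem GR_X1 (N m : ℕ) (f : ℕ → ℂ) (b : Fin m → ℂ) (k : ℕ) (hk : k < N) :
    GR_X N m f b k = f k := by
  unfold GR_X
  rw [if_pos hk]

theorem GR_X2 (N m : ℕ) (f : ℕ → ℂ) (b : Fin m → ℂ) (k : Fin m) :
    GR_X N m f b (N + k) = b k := by
  unfold GR_X
  rw [if_neg (by omega), dif_pos (by have := k.2; omega)]
  congr 1
  ext
  show N + (k : ℕ) - N = k
  omega

theorem GR_X3 (N m : ℕ) (f : ℕ → ℂ) (b : Fin m → ℂ) (k : ℕ) :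
    GR_X N m f b (N + (m + k)) = 0 := by
  unfold GR_X
  rw [if_neg (by omega), dif_neg (by omega)]

theorem GR_gram (N m d n : ℕ) (hn : n = N + (m + d)) (f g : ℕ → ℂ) (b c : Fin m → ℂ) :
    ∑ k : Fin n, star (GR_X N m f b k) * GR_X N m g c k =
      ∑ k ∈ Finset.range N, star (f k) * g k + ∑ k, star (b k) * c k := by
  rw [GR_sum N m d n hn (fun k => star (GR_X N m f b k) * GR_X N m g c k)
    (fun k => by show star (GR_X N m f b (N + (m + k))) * _ = 0; rw [GR_X3]; simp)]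
  congr 1
  · refine Finset.sum_congr rfl fun k hk => ?_
    rw [GR_X1 _ _ _ _ _ (Finset.mem_range.1 hk), GR_X1 _ _ _ _ _ (Finset.mem_range.1 hk)]
  · refine Finset.sum_congr rfl fun k _ => ?_
    rw [GR_X2, GR_X2]

theorem GR_vec (N m d n : ℕ) (hn : n = N + (m + d)) (f : ℕ → ℂ) (b : Fin m → ℂ) :
    ∑ k : Fin n, GR_X N m f b k • e k =
      ∑ k ∈ Finset.range N, f k • e k + ∑ k : Fin m, b k • e (N + k) := by
  rw [GR_sum N m d n hn (fun k => GR_X N m f b k • e k)
    (fun k => by show GR_X N m f b (N + (m + k)) • _ = 0; rw [GR_X3, zero_smul])]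
  congr 1
  · refine Finset.sum_congr rfl fun k hk => ?_
    rw [GR_X1 _ _ _ _ _ (Finset.mem_range.1 hk)]
  · refine Finset.sum_congr rfl fun k _ => ?_
    rw [GR_X2]

theorem GR_norm (N m : ℕ) (b : Fin m → ℂ) (c : ℝ) (h : ∑ k, star (b k) * b k = (c : ℂ)) :
    ‖∑ k : Fin m, b k • e (N + k)‖ ^ 2 = c := by
  have ho : Orthonormal ℂ (fun k : Fin m => e (N + k)) :=
    GR_on.comp (fun k : Fin m => N + (k : ℕ)) (fun a b hab => by
      ext
      exact Nat.add_left_cancel hab)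
  have h1 := ho.inner_sum b b Finset.univ
  rw [inner_self_eq_norm_sq_to_K] at h1
  have h2 : ((‖∑ k : Fin m, b k • e (N + k)‖ ^ 2 : ℝ) : ℂ) = (c : ℂ) := by
    rw [← h]
    push_cast
    exact h1
  exact_mod_cast h2

/-- Module GR: truncate to the span of `e_0, …` (error as small as you like, Gram difference
`≤ 2 δ`), put `Δ i j = ⟪η i, η j⟫ - ⟪θ i, θ j⟫`, `c = 2 m δ`; `Δ + c` is positive semidefinite
(diagonally dominant), `= Bᴴ * B` (`Matrix.posSemidef_iff_eq_conjTranspose_mul_self`); add the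
`j`-th column of `B` to `θ j` and `√c` times the `j`-th unit vector to `η j` in new coordinates -/
theorem gram_close (m : ℕ) (δ : ℝ) (hδ : 0 < δ) (θ η : Fin m → H)
    (h : ∀ i j, ‖⟪θ i, θ j⟫_ℂ - ⟪η i, η j⟫_ℂ‖ ≤ δ) :
    ∃ (r : ℕ) (x y : Fin m → Fin (2 ^ r) → ℂ),
      (∀ i j, ∑ k, star (x i k) * x j k = ∑ k, star (y i k) * y j k) ∧
      (∀ j, ‖θ j - ∑ k, x j k • e k‖ ≤ 3 * √(m * δ)) ∧
      ∀ j, ‖η j - ∑ k, y j k • e k‖ ≤ 3 * √(m * δ) := by
  rcases Nat.eq_zero_or_pos m with hm | hm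
  · subst hm
    exact ⟨0, fun i => i.elim0, fun i => i.elim0, fun i => i.elim0, fun i => i.elim0,
      fun i => i.elim0⟩
  have hm' : (1 : ℝ) ≤ m := by exact_mod_cast hm
  have hτ : 0 < √(m * δ) := Real.sqrt_pos.2 (by positivity)
  -- truncation
  have t1 : ∀ j, ∀ᶠ N in atTop, ‖θ j - ∑ k ∈ Finset.range N, θ j k • e k‖ < √(m * δ) := by
    intro j
    have := ((tendsto_const_nhds (x := θ j)).sub (GR_trunc (θ j))).norm
    rw [sub_self, norm_zero] at this
    exact this.eventually (gt_mem_nhds hτ)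
  have t2 : ∀ j, ∀ᶠ N in atTop, ‖η j - ∑ k ∈ Finset.range N, η j k • e k‖ < √(m * δ) := by
    intro j
    have := ((tendsto_const_nhds (x := η j)).sub (GR_trunc (η j))).norm
    rw [sub_self, norm_zero] at this
    exact this.eventually (gt_mem_nhds hτ)
  have t3 : ∀ i j, ∀ᶠ N in atTop, ‖⟪∑ k ∈ Finset.range N, η i k • e k,
      ∑ k ∈ Finset.range N, η j k • e k⟫_ℂ - ⟪∑ k ∈ Finset.range N, θ i k • e k,
      ∑ k ∈ Finset.range N, θ j k • e k⟫_ℂ‖ < 2 * δ := by
    intro i j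
    have a1 := (GR_trunc (η i)).inner (𝕜 := ℂ) (GR_trunc (η j))
    have a2 := (GR_trunc (θ i)).inner (𝕜 := ℂ) (GR_trunc (θ j))
    refine ((a1.sub a2).norm).eventually (gt_mem_nhds ?_)
    rw [norm_sub_rev]
    linarith [h i j]
  obtain ⟨N, hN⟩ := ((eventually_all.2 t1).and ((eventually_all.2 t2).and
    (eventually_all.2 fun i => eventually_all.2 (t3 i)))).exists
  obtain ⟨hN1, hN2, hN3⟩ := hN
  -- the difference of the Gram matrices
  obtain ⟨D, hD⟩ : ∃ D : Matrix (Fin m) (Fin m) ℂ, ∀ i j, D i j =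
      (∑ k ∈ Finset.range N, star (η i k) * η j k) -
        ∑ k ∈ Finset.range N, star (θ i k) * θ j k := ⟨Matrix.of _, fun _ _ => rfl⟩
  have hDH : D.IsHermitian := by
    ext i j
    rw [Matrix.conjTranspose_apply, hD, hD, star_sub, star_sum, star_sum]
    congr 1 <;>
    · refine Finset.sum_congr rfl fun k _ => ?_
      rw [star_mul, star_star]
  have hDb : ∀ i j, ‖D i j‖ ≤ 2 * δ := by
    intro i j
    have := (hN3 i j).le
    rw [GR_on.inner_sum, GR_on.inner_sum] at this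
    rw [hD]
    exact this
  obtain ⟨B, hB⟩ := GR_psd m D hDH (2 * δ) hDb
  have hBij : ∀ i j, ∑ k, star (B k i) * B k j =
      D i j + if i = j then ((m * (2 * δ) : ℝ) : ℂ) else 0 := by
    intro i j
    have := congrFun (congrFun hB i) j
    rw [Matrix.mul_apply, Matrix.add_apply, Matrix.smul_apply, Matrix.one_apply] at this
    simp only [Matrix.conjTranspose_apply] at this
    rw [← this]
    congr 1
    split_ifs <;> simp
  obtain ⟨c, hc⟩ : ∃ c : Fin m → Fin m → ℂ, ∀ j k, c j k =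
      if k = j then ((√(m * (2 * δ)) : ℝ) : ℂ) else 0 := ⟨_, fun _ _ => rfl⟩
  have hcc : (((√(m * (2 * δ)) : ℝ) : ℂ)) * ((√(m * (2 * δ)) : ℝ) : ℂ) =
      ((m * (2 * δ) : ℝ) : ℂ) := by
    rw [← Complex.ofReal_mul, Real.mul_self_sqrt (by positivity)]
  have hcij : ∀ i j, ∑ k, star (c i k) * c j k =
      if i = j then ((m * (2 * δ) : ℝ) : ℂ) else 0 := by
    intro i j
    simp only [hc]
    by_cases hij : i = j
    · subst hij
      rw [if_pos rfl, Finset.sum_eq_single i]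
      · rw [if_pos rfl, Complex.star_def, Complex.conj_ofReal, hcc]
      · intro k _ hk
        rw [if_neg hk]
        simp
      · intro hi
        exact absurd (Finset.mem_univ _) hi
    · rw [if_neg hij]
      refine Finset.sum_eq_zero fun k _ => ?_
      by_cases hk : k = i
      · rw [if_neg (fun hkj => hij (hk.symm.trans hkj))]
        simp
      · rw [if_neg hk]
        simp
  -- the size
  obtain ⟨r, hr⟩ : ∃ r : ℕ, N + m ≤ 2 ^ r := ⟨N + m, Nat.lt_two_pow_self.le⟩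
  obtain ⟨d, hd⟩ : ∃ d, 2 ^ r = N + (m + d) := ⟨2 ^ r - (N + m), by omega⟩
  refine ⟨r, fun j k => GR_X N m (θ j) (fun l => B l j) k, fun j k => GR_X N m (η j) (c j) k,
    ?_, ?_, ?_⟩
  · intro i j
    rw [GR_gram N m d _ hd, GR_gram N m d _ hd, hBij, hcij, hD]
    ring
  · intro j
    rw [GR_vec N m d _ hd]
    have h1 : ‖∑ k : Fin m, B k j • e (N + k)‖ ≤ 2 * √(m * δ) := by
      obtain ⟨a, ha⟩ : ∃ a : ℝ, a = ‖∑ k : Fin m, B k j • e (N + k)‖ ^ 2 := ⟨_, rfl⟩
      have h2 : ((a : ℝ) : ℂ) = D j j + ((m * (2 * δ) : ℝ) : ℂ) := by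
        have h3 := hBij j j
        rw [if_pos rfl] at h3
        rw [← h3]
        have h4 : ∑ k, star (B k j) * B k j = ((∑ k, ‖B k j‖ ^ 2 : ℝ) : ℂ) := by
          push_cast
          exact Finset.sum_congr rfl fun k _ => Complex.conj_mul' _
        rw [ha, GR_norm N m (fun k => B k j) _ h4, h4]
      have h5 : a ≤ 4 * (m * δ) := by
        have h6 : ‖((a : ℝ) : ℂ)‖ ≤ 2 * δ + m * (2 * δ) := by
          rw [h2]
          refine (norm_add_le _ _).trans ?_
          refine add_le_add (hDb j j) ?_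
          rw [Complex.norm_real, Real.norm_of_nonneg (by positivity)]
        rw [Complex.norm_real] at h6
        have h7 := (le_abs_self a).trans h6
        nlinarith
      rw [ha] at h5
      have h8 : 4 * (m * δ) = (2 * √(m * δ)) ^ 2 := by
        rw [mul_pow, Real.sq_sqrt (by positivity)]
        norm_num
      rw [h8] at h5
      exact le_of_sq_le_sq h5 (by positivity)
    have h2 := (hN1 j).le
    calc ‖θ j - (∑ k ∈ Finset.range N, θ j k • e k + ∑ k : Fin m, B k j • e (N + k))‖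
        = ‖(θ j - ∑ k ∈ Finset.range N, θ j k • e k) - ∑ k : Fin m, B k j • e (N + k)‖ := by
          rw [sub_add_eq_sub_sub]
      _ ≤ _ := norm_sub_le _ _
      _ ≤ 3 * √(m * δ) := by linarith
  · intro j
    rw [GR_vec N m d _ hd]
    have h1 : ‖∑ k : Fin m, c j k • e (N + k)‖ ≤ 2 * √(m * δ) := by
      have h3 := hcij j j
      rw [if_pos rfl] at h3
      have h4 := GR_norm N m (c j) _ h3
      have h5 : ‖∑ k : Fin m, c j k • e (N + k)‖ ^ 2 ≤ (2 * √(m * δ)) ^ 2 := by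
        rw [h4, mul_pow, Real.sq_sqrt (by positivity)]
        nlinarith [mul_pos (lt_of_lt_of_le one_pos hm') hδ]
      exact le_of_sq_le_sq h5 (by positivity)
    have h2 := (hN2 j).le
    calc ‖η j - (∑ k ∈ Finset.range N, η j k • e k + ∑ k : Fin m, c j k • e (N + k))‖
        = ‖(η j - ∑ k ∈ Finset.range N, η j k • e k) - ∑ k : Fin m, c j k • e (N + k)‖ := by
          rw [sub_add_eq_sub_sub]
      _ ≤ _ := norm_sub_le _ _
      _ ≤ 3 * √(m * δ) := by linarith

end Vale.Agent.P083
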