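import Vale.Agent.P083.Defs

open scoped ENNReal Topology InnerProductSpace
open Filter

namespace Vale.Agent.P083

open Vale.Agent.P101K

variable {ω : Ultrafilter ℕ} {A C : Type} [CStarAlgebra A] [CStarAlgebra C]

/-- the homomorphism `X ↦ ∑ t i * α (X i j) * star (t j)` -/
noncomputable def pos2hom {D : Type} [CStarAlgebra D] (α : A →⋆ₐ[ℂ] D) {ι : Type} [Fintype ι]
    [DecidableEq ι] (t : ι → D) (h1 : ∀ i j, star (t i) * t j = if i = j then 1 else 0)
    (h2 : ∑ i, t i * star (t i) = 1) : CStarMatrix ι ι A →⋆ₐ[ℂ] D where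
  toFun X := ∑ i, ∑ j, t i * α (X i j) * star (t j)
  map_one' := by
    rw [← h2]
    refine Finset.sum_congr rfl fun i _ => ?_
    rw [Finset.sum_eq_single i]
    · simp
    · intro j _ hj
      rw [CStarMatrix.one_apply_ne (Ne.symm hj)]
      simp
    · simp
  map_mul' X Y := by
    have h3 : ∀ i j k l, t i * α (X i j) * star (t j) * (t k * α (Y k l) * star (t l))
        = if j = k then t i * α (X i j) * α (Y k l) * star (t l) else 0 := by
      intro i j k l
      have : t i * α (X i j) * star (t j) * (t k * α (Y k l) * star (t l))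
          = t i * α (X i j) * (star (t j) * t k) * α (Y k l) * star (t l) := by
        simp only [mul_assoc]
      rw [this, h1]
      split_ifs <;> simp
    rw [Finset.sum_mul]
    refine Finset.sum_congr rfl fun i _ => ?_
    rw [Finset.sum_mul]
    have h4 : ∀ j, t i * α (X i j) * star (t j) * ∑ k, ∑ l, t k * α (Y k l) * star (t l)
        = ∑ l, t i * α (X i j) * α (Y j l) * star (t l) := by
      intro j
      rw [Finset.mul_sum]
      rw [Finset.sum_eq_single j]
      · rw [Finset.mul_sum]
        refine Finset.sum_congr rfl fun l _ => ?_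
        rw [h3, if_pos rfl]
      · intro k _ hk
        rw [Finset.mul_sum]
        refine Finset.sum_eq_zero fun l _ => ?_
        rw [h3, if_neg (Ne.symm hk)]
      · simp
    simp only [h4]
    rw [Finset.sum_comm]
    refine Finset.sum_congr rfl fun l _ => ?_
    rw [CStarMatrix.mul_apply, map_sum, Finset.mul_sum, Finset.sum_mul]
    refine Finset.sum_congr rfl fun j _ => ?_
    rw [map_mul]
    simp only [mul_assoc]
  map_zero' := by simp
  map_add' X Y := by
    simp only [CStarMatrix.add_apply, map_add, mul_add, add_mul, Finset.sum_add_distrib]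
  commutes' r := by
    have h5 : algebraMap ℂ D r = r • ∑ i, t i * star (t i) := by
      rw [h2, Algebra.algebraMap_eq_smul_one]
    rw [h5, Finset.smul_sum]
    refine Finset.sum_congr rfl fun i _ => ?_
    rw [Finset.sum_eq_single i]
    · rw [CStarMatrix.algebraMap_apply, if_pos rfl, AlgHomClass.commutes,
        Algebra.algebraMap_eq_smul_one]
      simp
    · intro j _ hj
      rw [CStarMatrix.algebraMap_apply, if_neg (Ne.symm hj)]
      simp
    · simp
  map_star' X := by
    rw [star_sum]
    rw [Finset.sum_comm]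
    refine Finset.sum_congr rfl fun i _ => ?_
    rw [star_sum]
    refine Finset.sum_congr rfl fun j _ => ?_
    rw [CStarMatrix.star_apply, map_star]
    simp only [star_mul, star_star, mul_assoc]

theorem pos2hom_inj {D : Type} [CStarAlgebra D] (α : A →⋆ₐ[ℂ] D) (hα : Function.Injective α)
    {ι : Type} [Fintype ι] [DecidableEq ι] (t : ι → D)
    (h1 : ∀ i j, star (t i) * t j = if i = j then 1 else 0)
    (h2 : ∑ i, t i * star (t i) = 1) : Function.Injective (pos2hom α t h1 h2) := by
  have h3 : ∀ (X : CStarMatrix ι ι A) (k l : ι),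
      star (t k) * pos2hom α t h1 h2 X * t l = α (X k l) := by
    intro X k l
    have h4 : pos2hom α t h1 h2 X = ∑ i, ∑ j, t i * α (X i j) * star (t j) := rfl
    rw [h4, Finset.mul_sum, Finset.sum_mul, Finset.sum_eq_single k]
    · rw [Finset.mul_sum, Finset.sum_mul, Finset.sum_eq_single l]
      · have : star (t k) * (t k * α (X k l) * star (t l)) * t l
            = (star (t k) * t k) * α (X k l) * (star (t l) * t l) := by simp only [mul_assoc]
        rw [this, h1, h1, if_pos rfl, if_pos rfl, one_mul, mul_one]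
      · intro j _ hj
        have : star (t k) * (t k * α (X k j) * star (t j)) * t l
            = (star (t k) * t k) * α (X k j) * (star (t j) * t l) := by simp only [mul_assoc]
        rw [this, h1 j l, if_neg hj, mul_zero]
      · simp
    · intro i _ hi
      rw [Finset.mul_sum, Finset.sum_mul]
      refine Finset.sum_eq_zero fun j _ => ?_
      have : star (t k) * (t i * α (X i j) * star (t j)) * t l
          = (star (t k) * t i) * α (X i j) * (star (t j) * t l) := by simp only [mul_assoc]
      rw [this, h1 k i, if_neg (Ne.symm hi), zero_mul, zero_mul]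
    · simp
  intro X Y hXY
  ext k l
  apply hα
  rw [← h3 X k l, ← h3 Y k l, hXY]

theorem pos2reflect {M D : Type} [CStarAlgebra M] [CStarAlgebra D] (ψ : M →⋆ₐ[ℂ] D)
    (hψ : Function.Injective ψ) (X : M) (Z : D) (h : ψ X = star Z * Z) :
    ∃ N : M, X = star N * N := by
  let _ : PartialOrder M := CStarAlgebra.spectralOrder M
  have _ : StarOrderedRing M := CStarAlgebra.spectralOrderedRing M
  let _ : PartialOrder D := CStarAlgebra.spectralOrder D
  have _ : StarOrderedRing D := CStarAlgebra.spectralOrderedRing D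
  have hsa : IsSelfAdjoint X := by
    apply hψ
    rw [map_star, h, star_mul, star_star]
  have hpos : 0 ≤ X := by
    rw [StarOrderedRing.nonneg_iff_spectrum_nonneg (R := ℝ) X hsa]
    intro x hx
    rw [← hsa.map_spectrum_real ψ hψ, h] at hx
    exact spectrum_nonneg_of_nonneg (star_mul_self_nonneg Z) hx
  exact CStarAlgebra.nonneg_iff_eq_star_mul_self.mp hpos

/-- Module P2: positivity is reflected by the injective unital *-homomorphism
`CStarMatrix _ _ A → D`, `X ↦ ∑ t i * α (X i j) * star (t j)` -/
theorem pos2 {D : Type} [CStarAlgebra D] (α : A →⋆ₐ[ℂ] D) (hα : Function.Injective α) (q : ℕ)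
    (t : Fin (2 ^ q) → D) (h1 : ∀ i j, star (t i) * t j = if i = j then 1 else 0)
    (h2 : ∑ i, t i * star (t i) = 1) (X : Matrix (Fin (2 ^ q)) (Fin (2 ^ q)) A)
    (hX : ∃ Z : D, ∑ i, ∑ j, t i * α (X i j) * star (t j) = star Z * Z) :
    ∃ N : Matrix (Fin (2 ^ q)) (Fin (2 ^ q)) A, ∀ i j, X i j = ∑ k, star (N k i) * N k j := by
  let _ : PartialOrder A := CStarAlgebra.spectralOrder A
  have _ : StarOrderedRing A := CStarAlgebra.spectralOrderedRing A
  obtain ⟨Z, hZ⟩ := hX
  obtain ⟨N, hN⟩ := pos2reflect (M := CStarMatrix (Fin (2 ^ q)) (Fin (2 ^ q)) A)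
    (pos2hom α t h1 h2) (pos2hom_inj α hα t h1 h2) (CStarMatrix.ofMatrix X) Z hZ
  refine ⟨fun i j => N i j, fun i j => ?_⟩
  have h6 : (CStarMatrix.ofMatrix X) i j = (star N * N) i j := by rw [← hN]
  rw [CStarMatrix.mul_apply] at h6
  exact h6

end Vale.Agent.P083
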