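import Vale.Agent.P083.Defs

open scoped ENNReal Topology InnerProductSpace
open Filter

namespace Vale.Agent.P083

open Vale.Agent.P101K

variable {ω : Ultrafilter ℕ} {A C : Type} [CStarAlgebra A] [CStarAlgebra C]

/-- Module P3: positive functionals and Gram matrices -/
theorem pos3 (iA : A →⋆ₐ[ℂ] C) (φ : C →L[ℂ] ℂ) (hφ : ∀ y, 0 ≤ (φ (star y * y)).re) (m : ℕ)
    (x : Fin m → C) (X N : Matrix (Fin m) (Fin m) A)
    (hX : ∀ i j, X i j = ∑ k, star (N k i) * N k j) :
    0 ≤ (∑ i, ∑ j, φ (star (x i) * iA (X i j) * x j)).re := by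
  have h1 : ∀ k, φ (star (∑ i, iA (N k i) * x i) * (∑ j, iA (N k j) * x j)) =
      ∑ i, ∑ j, φ (star (x i) * iA (star (N k i) * N k j) * x j) := by
    intro k
    rw [star_sum, Finset.sum_mul_sum, map_sum]
    refine Finset.sum_congr rfl fun i _ => ?_
    rw [map_sum]
    refine Finset.sum_congr rfl fun j _ => ?_
    rw [star_mul, map_mul iA, map_star iA]
    simp only [mul_assoc]
  have h : ∑ k, φ (star (∑ i, iA (N k i) * x i) * (∑ j, iA (N k j) * x j)) =
      ∑ i, ∑ j, φ (star (x i) * iA (X i j) * x j) := by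
    rw [Finset.sum_congr rfl fun k _ => h1 k, Finset.sum_comm]
    refine Finset.sum_congr rfl fun i _ => ?_
    rw [Finset.sum_comm]
    refine Finset.sum_congr rfl fun j _ => ?_
    rw [hX, map_sum, Finset.mul_sum, Finset.sum_mul, map_sum]
  rw [← h, Complex.re_sum]
  exact Finset.sum_nonneg fun k _ => hφ _

end Vale.Agent.P083
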