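import Vale.Agent.P083.Pos1
import Vale.Agent.P083.Pos2
import Vale.Agent.P083.Pos3

open scoped ENNReal Topology InnerProductSpace
open Filter

namespace Vale.Agent.P083

open Vale.Agent.P101K

variable {ω : Ultrafilter ℕ} {A C : Type} [CStarAlgebra A] [CStarAlgebra C]

/-- Module P4: from `pos1`, `pos2` (with `D = Aom O2 ω`, `t = TT ω q`,
`X i j = -∑ s (c0 s i j • a s + star (c0 s j i) • star (a s))`), `pos3`; note
`φ (star y) = star (φ y)` -/
theorem pos4 {α : A →⋆ₐ[ℂ] Aom O2 ω} (hα : Function.Injective α) (l : Lift ω α)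
    {S : Type} [Fintype S] (a : S → A) (q : ℕ)
    (c : ℕ → S → Fin (2 ^ q) → Fin (2 ^ q) → ℂ) (c0 : S → Fin (2 ^ q) → Fin (2 ^ q) → ℂ)
    (hc : ∀ s i j, Tendsto (fun n => c n s i j) ω (𝓝 (c0 s i j)))
    (hn : ∀ᶠ n in (ω : Filter ℕ), ∀ ζ : Fin (2 ^ q) → H,
      (∑ s, ∑ i, ∑ j, c n s i j * ⟪ζ i, ((l.seq (a s) n : O2) : L) (ζ j)⟫_ℂ).re ≤ 0)
    (iA : A →⋆ₐ[ℂ] C) (φ : C →L[ℂ] ℂ) (hφ : ∀ y, 0 ≤ (φ (star y * y)).re)
    (hφs : ∀ y, φ (star y) = star (φ y)) (x : Fin (2 ^ q) → C) :
    (∑ s, ∑ i, ∑ j, c0 s i j * φ (star (x i) * iA (a s) * x j)).re ≤ 0 := by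
  obtain ⟨Z, hZ⟩ := pos1 l a q c c0 hc hn
  set X : Matrix (Fin (2 ^ q)) (Fin (2 ^ q)) A := fun i j =>
    -∑ s, (c0 s i j • a s + star (c0 s j i) • star (a s)) with hX
  have h1 : ∑ i, ∑ j, TT ω q i * α (X i j) * star (TT ω q j) =
      -((∑ s, ∑ i, ∑ j, c0 s i j • (TT ω q i * α (a s) * star (TT ω q j))) +
      star (∑ s, ∑ i, ∑ j, c0 s i j • (TT ω q i * α (a s) * star (TT ω q j)))) := by
    have e1 : ∀ i j, TT ω q i * α (X i j) * star (TT ω q j) =
        -(∑ s, c0 s i j • (TT ω q i * α (a s) * star (TT ω q j)) +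
          ∑ s, star (c0 s j i) • (TT ω q i * star (α (a s)) * star (TT ω q j))) := by
      intro i j
      rw [← Finset.sum_add_distrib]
      simp only [hX, map_neg, map_sum, map_add, map_smul, map_star, mul_neg, neg_mul, Finset.mul_sum,
        Finset.sum_mul, mul_add, add_mul, mul_smul_comm, smul_mul_assoc]
    simp only [e1, Finset.sum_neg_distrib, Finset.sum_add_distrib]
    congr 1
    congr 1
    · rw [Finset.sum_comm]
      have : ∀ j : Fin (2 ^ q), ∑ i : Fin (2 ^ q), ∑ s : S, c0 s i j • (TT ω q i * α (a s) * star (TT ω q j)) =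
          ∑ s : S, ∑ i : Fin (2 ^ q), c0 s i j • (TT ω q i * α (a s) * star (TT ω q j)) :=
        fun j => Finset.sum_comm
      simp only [this]
      rw [Finset.sum_comm]
      refine Finset.sum_congr rfl (fun s _ => ?_)
      rw [Finset.sum_comm]
    · simp only [star_sum, star_smul, star_mul, star_star]
      have : ∀ i : Fin (2 ^ q), ∑ j : Fin (2 ^ q), ∑ s : S,
          star (c0 s j i) • (TT ω q i * star (α (a s)) * star (TT ω q j)) =
          ∑ s : S, ∑ j : Fin (2 ^ q), star (c0 s j i) • (TT ω q i * star (α (a s)) * star (TT ω q j)) :=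
        fun j => Finset.sum_comm
      simp only [this]
      rw [Finset.sum_comm]
      refine Finset.sum_congr rfl (fun s _ => ?_)
      rw [Finset.sum_comm]
      refine Finset.sum_congr rfl (fun i _ => Finset.sum_congr rfl (fun j _ => ?_))
      rw [mul_assoc]
  obtain ⟨N, hN⟩ := pos2 α hα q (TT ω q) (TT_star_mul q) (TT_sum q) X ⟨Z, h1.trans hZ⟩
  have h3 := pos3 iA φ hφ (2 ^ q) x X N hN
  set W : ℂ := ∑ s, ∑ i, ∑ j, c0 s i j * φ (star (x i) * iA (a s) * x j) with hW
  have h4 : ∑ i, ∑ j, φ (star (x i) * iA (X i j) * x j) = -(W + star W) := by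
    have e1 : ∀ i j, φ (star (x i) * iA (X i j) * x j) =
        -(∑ s, c0 s i j * φ (star (x i) * iA (a s) * x j) +
          ∑ s, star (c0 s j i * φ (star (x j) * iA (a s) * x i))) := by
      intro i j
      have e2 : ∀ s, star (c0 s j i * φ (star (x j) * iA (a s) * x i)) =
          star (c0 s j i) * φ (star (x i) * star (iA (a s)) * x j) := by
        intro s
        rw [star_mul', ← hφs]
        simp only [star_mul, star_star, mul_assoc]
      simp only [e2]
      rw [← Finset.sum_add_distrib]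
      simp only [hX, map_neg, map_sum, map_add, map_smul, map_star, mul_neg, neg_mul, Finset.mul_sum,
        Finset.sum_mul, mul_add, add_mul, mul_smul_comm, smul_mul_assoc, smul_eq_mul]
    simp only [e1, Finset.sum_neg_distrib, Finset.sum_add_distrib]
    rw [hW]
    congr 1
    congr 1
    · have : ∀ i : Fin (2 ^ q), ∑ j : Fin (2 ^ q), ∑ s : S, c0 s i j * φ (star (x i) * iA (a s) * x j) =
          ∑ s : S, ∑ j : Fin (2 ^ q), c0 s i j * φ (star (x i) * iA (a s) * x j) :=
        fun j => Finset.sum_comm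
      simp only [this]
      rw [Finset.sum_comm]
    · simp only [star_sum]
      have : ∀ i : Fin (2 ^ q), ∑ j : Fin (2 ^ q), ∑ s : S,
          star (c0 s j i * φ (star (x j) * iA (a s) * x i)) =
          ∑ s : S, ∑ j : Fin (2 ^ q), star (c0 s j i * φ (star (x j) * iA (a s) * x i)) :=
        fun j => Finset.sum_comm
      simp only [this]
      rw [Finset.sum_comm]
      refine Finset.sum_congr rfl (fun s _ => ?_)
      rw [Finset.sum_comm]
  rw [h4] at h3
  have h5 : (-(W + star W)).re = -(2 * W.re) := by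
    simp only [Complex.neg_re, Complex.add_re, Complex.star_def, Complex.conj_re]
    ring
  rw [h5] at h3
  linarith

end Vale.Agent.P083
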