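import Vale.Agent.P083.SepB
import Vale.Agent.P083.Pos4

open scoped ENNReal Topology InnerProductSpace
open Filter

namespace Vale.Agent.P083

open Vale.Agent.P101K

variable {ω : Ultrafilter ℕ} {A C : Type} [CStarAlgebra A] [CStarAlgebra C]

/-- Module HBV: by contradiction with `sep` at every `n` of a set in `ω`, ultralimit `c0` of the
coefficients (bounded by 1), `pos4` against `δ / 2 ≤ …` -/
theorem hbv {α : A →⋆ₐ[ℂ] Aom O2 ω} (hα : Function.Injective α) (l : Lift ω α)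
    {S : Type} [Fintype S] (a : S → A) (q : ℕ)
    (iA : A →⋆ₐ[ℂ] C) (φ : C →L[ℂ] ℂ) (hφ : ∀ y, 0 ≤ (φ (star y * y)).re)
    (hφs : ∀ y, φ (star y) = star (φ y)) (x : Fin (2 ^ q) → C) (δ : ℝ) (hδ : 0 < δ) :
    ∀ᶠ n in (ω : Filter ℕ), ∃ (r : ℕ) (η : Fin (2 ^ q) → H), ∀ s i j,
      ‖⟪η i, (∑ k : Fin (2 ^ r), T r k * ((l.seq (a s) n : O2) : L) * star (T r k)) (η j)⟫_ℂ -
        φ (star (x i) * iA (a s) * x j)‖ ≤ δ := by
  classical
  by_contra hcon
  rw [← Ultrafilter.eventually_not] at hcon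
  have hchoice : ∀ n : ℕ, ∃ c : S → Fin (2 ^ q) → Fin (2 ^ q) → ℂ, (∀ s i j, ‖c s i j‖ ≤ 1) ∧
      ((¬ ∃ (r : ℕ) (η : Fin (2 ^ q) → H), ∀ s i j,
        ‖⟪η i, (∑ k : Fin (2 ^ r), T r k * ((l.seq (a s) n : O2) : L) * star (T r k)) (η j)⟫_ℂ -
          φ (star (x i) * iA (a s) * x j)‖ ≤ δ) →
        (∀ ζ : Fin (2 ^ q) → H,
          (∑ s, ∑ i, ∑ j, c s i j * ⟪ζ i, ((l.seq (a s) n : O2) : L) (ζ j)⟫_ℂ).re ≤ 0) ∧
        δ / 2 ≤ (∑ s, ∑ i, ∑ j, c s i j * φ (star (x i) * iA (a s) * x j)).re) := by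
    intro n
    rcases sep q (fun s => ((l.seq (a s) n : O2) : L))
      (fun s i j => φ (star (x i) * iA (a s) * x j)) δ hδ with h | ⟨c, h1, h2, h3⟩
    · exact ⟨fun _ _ _ => 0, fun _ _ _ => by simp, fun h' => absurd h h'⟩
    · exact ⟨c, h1, fun _ => ⟨h2, h3⟩⟩
  choose c hc1 hc2 using hchoice
  have hlim : ∀ s i j, ∃ z : ℂ, Tendsto (fun n => c n s i j) (ω : Filter ℕ) (𝓝 z) := by
    intro s i j
    obtain ⟨z, -, hz⟩ := (isCompact_closedBall (0 : ℂ) 1).ultrafilter_le_nhds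
      (ω.map (fun n => c n s i j)) (by
        rw [Filter.le_principal_iff]
        rw [Ultrafilter.mem_coe, Ultrafilter.mem_map]
        refine Filter.univ_mem' fun n => ?_
        change c n s i j ∈ Metric.closedBall (0 : ℂ) 1
        rw [mem_closedBall_zero_iff]
        exact hc1 n s i j)
    exact ⟨z, hz⟩
  choose c0 hc0 using hlim
  have h4 := pos4 hα l a q c c0 hc0 (hcon.mono fun n hn => (hc2 n hn).1) iA φ hφ hφs x
  have ht : Tendsto (fun n => (∑ s, ∑ i, ∑ j, c n s i j * φ (star (x i) * iA (a s) * x j)).re)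
      (ω : Filter ℕ) (𝓝 (∑ s, ∑ i, ∑ j, c0 s i j * φ (star (x i) * iA (a s) * x j)).re) := by
    refine (Complex.continuous_re.tendsto _).comp ?_
    refine tendsto_finsetSum _ fun s _ => tendsto_finsetSum _ fun i _ =>
      tendsto_finsetSum _ fun j _ => ?_
    exact (hc0 s i j).mul_const _
  have h5 : δ / 2 ≤ (∑ s, ∑ i, ∑ j, c0 s i j * φ (star (x i) * iA (a s) * x j)).re :=
    ge_of_tendsto ht (hcon.mono fun n hn => (hc2 n hn).2)
  linarith

end Vale.Agent.P083
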