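import Vale.Agent.P083.Defs

open scoped ENNReal Topology InnerProductSpace
open Filter

namespace Vale.Agent.P083

open Vale.Agent.P101K

section

open scoped ComplexOrder

theorem STATE_real {B : Type*} [CStarAlgebra B] (ψ : B →L[ℂ] ℂ) (h1 : ψ 1 = 1)
    (hn : ∀ b, ‖ψ b‖ ≤ ‖b‖) (y : B) (hy : IsSelfAdjoint y) : (ψ y).im = 0 := by
  obtain ⟨β, hβ⟩ : ∃ β, β = (ψ y).im := ⟨_, rfl⟩
  have key : ∀ t : ℝ, (β + t) ^ 2 ≤ ‖y‖ ^ 2 + t ^ 2 * ‖(1 : B)‖ := by
    intro t
    have e1 : ψ (y + ((t : ℂ) * Complex.I) • (1 : B)) = ψ y + (t : ℂ) * Complex.I := by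
      rw [map_add, map_smul, h1, smul_eq_mul, mul_one]
    have e2 : (ψ (y + ((t : ℂ) * Complex.I) • (1 : B))).im = β + t := by
      rw [e1, hβ]
      simp
    have e3 : (β + t) ^ 2 ≤ ‖ψ (y + ((t : ℂ) * Complex.I) • (1 : B))‖ ^ 2 := by
      rw [← e2, ← sq_abs]
      exact pow_le_pow_left₀ (abs_nonneg _) (Complex.abs_im_le_norm _) 2
    have e4 : ‖ψ (y + ((t : ℂ) * Complex.I) • (1 : B))‖ ^ 2 ≤
        ‖y + ((t : ℂ) * Complex.I) • (1 : B)‖ ^ 2 :=
      pow_le_pow_left₀ (norm_nonneg _) (hn _) 2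
    have e5 : star (y + ((t : ℂ) * Complex.I) • (1 : B)) * (y + ((t : ℂ) * Complex.I) • (1 : B)) =
        y * y + ((t : ℂ) ^ 2) • (1 : B) := by
      have hc : star ((t : ℂ) * Complex.I) = -((t : ℂ) * Complex.I) := by
        rw [star_mul', Complex.star_def, Complex.conj_ofReal, Complex.conj_I]
        ring
      have hc2 : (t : ℂ) ^ 2 = -(((t : ℂ) * Complex.I) * ((t : ℂ) * Complex.I)) := by
        have := Complex.I_mul_I
        linear_combination ((t : ℂ) ^ 2) * this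
      rw [star_add, star_smul, star_one, hy.star_eq, hc, hc2]
      generalize (t : ℂ) * Complex.I = c
      rw [neg_smul, neg_smul, add_mul, mul_add, mul_add, neg_mul, neg_mul, smul_mul_assoc,
        smul_mul_assoc, mul_smul_comm, one_mul, one_mul, mul_one, smul_smul]
      abel
    have e8 : ‖y + ((t : ℂ) * Complex.I) • (1 : B)‖ ^ 2 ≤ ‖y‖ ^ 2 + t ^ 2 * ‖(1 : B)‖ := by
      rw [sq, ← CStarRing.norm_star_mul_self, e5]
      refine (norm_add_le _ _).trans (add_le_add ?_ ?_)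
      · rw [sq]
        exact norm_mul_le _ _
      · rw [norm_smul]
        simp
    linarith
  by_contra hne
  rw [← hβ] at hne
  have hβ0 : 0 < β ^ 2 := by positivity
  rcases subsingleton_or_nontrivial B with hB | hB
  · apply hne
    rw [hβ]
    have : y = 0 := Subsingleton.elim _ _
    rw [this, map_zero, Complex.zero_im]
  · have h2 := key (‖y‖ ^ 2 / (2 * β) )
    rw [norm_one, mul_one] at h2
    have h3 : 2 * β * (‖y‖ ^ 2 / (2 * β)) = ‖y‖ ^ 2 := by
      field_simp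
    nlinarith

theorem STATE_pos {B : Type*} [CStarAlgebra B] (ψ : B →L[ℂ] ℂ) (h1 : ψ 1 = 1)
    (hn : ∀ b, ‖ψ b‖ ≤ ‖b‖) (b : B) : 0 ≤ ψ (star b * b) := by
  have hsa : IsSelfAdjoint (star b * b) := IsSelfAdjoint.star_mul_self b
  have him := STATE_real ψ h1 hn _ hsa
  have hsp : SpectrumRestricts (star b * b) ContinuousMap.realToNNReal :=
    SpectrumRestricts.nnreal_iff.2 spectrum_star_mul_self_nonneg
  have h2 := (SpectrumRestricts.nnreal_iff_nnnorm hsa le_rfl).1 hsp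
  have h3 : ‖algebraMap ℝ B ‖star b * b‖ - star b * b‖ ≤ ‖star b * b‖ := by
    exact_mod_cast h2
  have h4 := (hn _).trans h3
  have h5 : ψ (algebraMap ℝ B ‖star b * b‖) = (‖star b * b‖ : ℂ) := by
    have : algebraMap ℝ B ‖star b * b‖ = ((‖star b * b‖ : ℝ) : ℂ) • (1 : B) := by
      rw [Algebra.algebraMap_eq_smul_one]
      exact (Complex.coe_smul _ _).symm
    rw [this, map_smul, h1, smul_eq_mul, mul_one]
  rw [map_sub, h5] at h4
  have h6 := (Complex.abs_re_le_norm _).trans h4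
  rw [Complex.sub_re, Complex.ofReal_re, abs_le] at h6
  rw [Complex.nonneg_iff]
  exact ⟨by linarith [h6.2], him.symm⟩


end

/-- Module ST: a state with `φ (x^* x) = ‖x‖^2` (Hahn-Banach from the span of `1` and `x^* x`, or the
tools of `Vale/Agent/P070/Exist.lean`) -/
theorem exists_state {C : Type} [CStarAlgebra C] [Nontrivial C] (x : C) :
    ∃ φ : C →L[ℂ] ℂ, φ 1 = 1 ∧ (∀ y, 0 ≤ (φ (star y * y)).re) ∧
      (∀ y, φ (star y) = star (φ y)) ∧ φ (star x * x) = ((‖x‖ ^ 2 : ℝ) : ℂ) := by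
  obtain ⟨h, hh⟩ : ∃ h : C, h = star x * x := ⟨_, rfl⟩
  have hnh : ‖h‖ = ‖x‖ ^ 2 := by
    rw [hh, CStarRing.norm_star_mul_self, sq]
  have hsa : IsSelfAdjoint h := by rw [hh]; exact IsSelfAdjoint.star_mul_self _
  have hmem : ‖h‖ ∈ spectrum ℝ h := by
    rcases CStarAlgebra.norm_or_neg_norm_mem_spectrum hsa with h1 | h1
    · exact h1
    · have h2 : 0 ≤ -‖h‖ := by
        rw [hh] at h1 ⊢
        exact spectrum_star_mul_self_nonneg _ h1
      have h3 : ‖h‖ = 0 := le_antisymm (by linarith) (norm_nonneg _)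
      rwa [h3, neg_zero, ← h3] at h1
  obtain ⟨y, hy⟩ : ∃ y : C, y = algebraMap ℝ C (1 + ‖h‖) + h := ⟨_, rfl⟩
  have hmy : ‖h‖ + (1 + ‖h‖) ∈ spectrum ℝ y := by
    rw [hy]
    exact spectrum.add_mem_add_iff.2 hmem
  have hny : 1 + 2 * ‖h‖ ≤ ‖y‖ := by
    have := spectrum.norm_le_norm_of_mem hmy
    rw [Real.norm_eq_abs] at this
    have h2 := le_abs_self (‖h‖ + (1 + ‖h‖))
    linarith
  obtain ⟨ψ, hψ1, hψy⟩ := exists_dual_vector'' ℂ y
  have hψn : ∀ b, ‖ψ b‖ ≤ ‖b‖ := fun b => by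
    have := ψ.le_opNorm b
    have h2 : ‖ψ‖ * ‖b‖ ≤ 1 * ‖b‖ := mul_le_mul_of_nonneg_right hψ1 (norm_nonneg _)
    linarith
  have hψy2 : ψ y = ((1 + ‖h‖ : ℝ) : ℂ) * ψ 1 + ψ h := by
    have : algebraMap ℝ C (1 + ‖h‖) = ((1 + ‖h‖ : ℝ) : ℂ) • (1 : C) := by
      rw [Algebra.algebraMap_eq_smul_one]
      exact (Complex.coe_smul _ _).symm
    rw [hy, map_add, this, map_smul, smul_eq_mul]
  have hn0 : 0 ≤ ‖h‖ := norm_nonneg _
  have hre : 1 + 2 * ‖h‖ ≤ (1 + ‖h‖) * (ψ 1).re + (ψ h).re := by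
    have h2 := congrArg Complex.re (hψy2.symm.trans hψy)
    rw [Complex.add_re, Complex.re_ofReal_mul] at h2
    have h3 : ((‖y‖ : ℝ) : ℂ).re = ‖y‖ := Complex.ofReal_re _
    have h4 : (1 + ‖h‖) * (ψ 1).re + (ψ h).re = ‖y‖ := by
      rw [h2]
      exact h3
    linarith
  have hr1 : (ψ 1).re ≤ 1 := by
    have h2 := (Complex.re_le_norm _).trans (hψn 1)
    rwa [norm_one] at h2
  have hrx : (ψ h).re ≤ ‖h‖ := (Complex.re_le_norm _).trans (hψn h)
  have hr1' : (ψ 1).re = 1 := by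
    by_contra hne
    have h2 : (ψ 1).re < 1 := lt_of_le_of_ne hr1 hne
    nlinarith
  have hrx' : (ψ h).re = ‖h‖ := by
    rw [hr1'] at hre
    linarith
  have h1 : ψ 1 = 1 := by
    have h2 : ‖ψ 1‖ ≤ 1 := by
      have := hψn 1
      rwa [norm_one] at this
    have h3 : (ψ 1).im = 0 := by
      have h4 : ‖ψ 1‖ ^ 2 = (ψ 1).re ^ 2 + (ψ 1).im ^ 2 := by
        rw [← Complex.normSq_eq_norm_sq, Complex.normSq_apply]
        ring
      have h5 : ‖ψ 1‖ ^ 2 ≤ 1 := pow_le_one₀ (norm_nonneg _) h2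
      rw [hr1'] at h4
      have h6 : (ψ 1).im ^ 2 ≤ 0 := by linarith
      exact pow_eq_zero_iff (two_ne_zero) |>.1 (le_antisymm h6 (sq_nonneg _))
    apply Complex.ext
    · rw [hr1', Complex.one_re]
    · rw [h3, Complex.one_im]
  refine ⟨ψ, h1, fun b => ?_, fun b => ?_, ?_⟩
  · exact (Complex.nonneg_iff.1 (STATE_pos ψ h1 hψn b)).1
  · have ha := STATE_real ψ h1 hψn (realPart b : C) (realPart b).2
    have hb := STATE_real ψ h1 hψn (imaginaryPart b : C) (imaginaryPart b).2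
    have e1 : b = (realPart b : C) + Complex.I • (imaginaryPart b : C) :=
      (realPart_add_I_smul_imaginaryPart b).symm
    have e2 : star b = (realPart b : C) - Complex.I • (imaginaryPart b : C) := by
      conv_lhs => rw [e1]
      rw [star_add, star_smul, (realPart b).2.star_eq, (imaginaryPart b).2.star_eq,
        Complex.star_def, Complex.conj_I, neg_smul, ← sub_eq_add_neg]
    have e3 : ψ b = ψ (realPart b : C) + Complex.I * ψ (imaginaryPart b : C) := by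
      conv_lhs => rw [e1]
      rw [map_add, map_smul, smul_eq_mul]
    rw [e2, map_sub, map_smul, smul_eq_mul, e3]
    apply Complex.ext
    · simp [ha, hb]
    · simp [ha, hb]
  · rw [← hh]
    apply Complex.ext
    · rw [hrx', hnh, Complex.ofReal_re]
    · rw [STATE_real ψ h1 hψn h hsa, Complex.ofReal_im]

end Vale.Agent.P083
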