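import Vale.Agent.P083.TRel

open scoped ENNReal Topology InnerProductSpace
open Filter

namespace Vale.Agent.P083

open Vale.Agent.P101K

private theorem MU_mul {ι : Type} [Fintype ι] [DecidableEq ι] {R : Type} [Ring R] [StarRing R]
    [Algebra ℂ R] (t : ι → R) (ht : ∀ i j, star (t i) * t j = if i = j then 1 else 0)
    (V W : Matrix ι ι ℂ) :
    (∑ i, ∑ j, V i j • (t i * star (t j))) * (∑ i, ∑ j, W i j • (t i * star (t j))) =
      ∑ i, ∑ j, (V * W) i j • (t i * star (t j)) := by
  have key : ∀ i j k l, (V i j • (t i * star (t j))) * (W k l • (t k * star (t l))) =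
      if j = k then (V i j * W k l) • (t i * star (t l)) else 0 := by
    intro i j k l
    rw [smul_mul_smul_comm, mul_assoc, ← mul_assoc (star (t j)), ht]
    split_ifs
    · rw [one_mul]
    · rw [zero_mul, mul_zero, smul_zero]
  rw [Finset.sum_mul]
  refine Finset.sum_congr rfl fun i _ => ?_
  rw [Finset.sum_mul]
  have h1 : ∀ j, V i j • (t i * star (t j)) * (∑ k, ∑ l, W k l • (t k * star (t l))) =
      ∑ l, (V i j * W j l) • (t i * star (t l)) := by
    intro j
    rw [Finset.mul_sum, Finset.sum_eq_single j]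
    · rw [Finset.mul_sum]
      refine Finset.sum_congr rfl fun l _ => ?_
      rw [key, if_pos rfl]
    · intro k _ hk
      rw [Finset.mul_sum]
      refine Finset.sum_eq_zero fun l _ => ?_
      rw [key, if_neg (Ne.symm hk)]
    · intro h
      exact absurd (Finset.mem_univ j) h
  rw [Finset.sum_congr rfl fun j _ => h1 j, Finset.sum_comm]
  refine Finset.sum_congr rfl fun l _ => ?_
  rw [Matrix.mul_apply, Finset.sum_smul]

private theorem MU_star {ι : Type} [Fintype ι] {R : Type} [Ring R] [StarRing R]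
    [Algebra ℂ R] [StarModule ℂ R] (t : ι → R) (V : Matrix ι ι ℂ) :
    star (∑ i, ∑ j, V i j • (t i * star (t j))) =
      ∑ i, ∑ j, (Matrix.conjTranspose V) i j • (t i * star (t j)) := by
  rw [star_sum]
  simp only [star_sum, star_smul, star_mul, star_star]
  rw [Finset.sum_comm]
  rfl

private theorem MU_one {ι : Type} [Fintype ι] [DecidableEq ι] {R : Type} [Ring R] [StarRing R]
    [Algebra ℂ R] (t : ι → R) (hs : ∑ i, t i * star (t i) = 1) :
    ∑ i, ∑ j, (1 : Matrix ι ι ℂ) i j • (t i * star (t j)) = 1 := by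
  rw [← hs]
  refine Finset.sum_congr rfl fun i _ => ?_
  rw [Finset.sum_eq_single i]
  · rw [Matrix.one_apply_eq, one_smul]
  · intro j _ hj
    rw [Matrix.one_apply_ne (Ne.symm hj), zero_smul]
  · intro h
    exact absurd (Finset.mem_univ i) h

/-- Module MU: `u = ∑ V i j • T r i * star (T r j)` -/
theorem exists_unitary_matrix (r : ℕ) (V : Matrix (Fin (2 ^ r)) (Fin (2 ^ r)) ℂ)
    (hV : V ∈ Matrix.unitaryGroup (Fin (2 ^ r)) ℂ) :
    ∃ u : O2, star u * u = 1 ∧ u * star u = 1 ∧
      ∀ j : Fin (2 ^ r), (u : L) (e j) = ∑ i, V i j • e i := by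
  obtain ⟨t, htt⟩ : ∃ t : Fin (2 ^ r) → O2, ∀ i, (t i : L) = T r i :=
    ⟨fun i => ⟨T r i, T_mem r i⟩, fun _ => rfl⟩
  have ht : ∀ i j, star (t i) * t j = if i = j then 1 else 0 := by
    intro i j
    apply Subtype.ext
    have h := T_star_mul r i j
    rw [← htt i, ← htt j] at h
    refine Eq.trans h ?_
    split_ifs <;> rfl
  have hs : ∑ i, t i * star (t i) = 1 := by
    apply Subtype.ext
    have h := T_sum r
    rw [AddSubmonoidClass.coe_finset_sum]
    refine Eq.trans (Finset.sum_congr rfl fun i _ => ?_) h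
    show (t i : L) * star (t i : L) = _
    rw [htt i]
  have hV1 : star V * V = 1 := Matrix.mem_unitaryGroup_iff'.1 hV
  have hV2 : V * star V = 1 := Matrix.mem_unitaryGroup_iff.1 hV
  refine ⟨∑ i, ∑ j, V i j • (t i * star (t j)), ?_, ?_, ?_⟩
  · rw [MU_star t V, MU_mul t ht, ← Matrix.star_eq_conjTranspose, hV1, MU_one t hs]
  · rw [MU_star t V, MU_mul t ht, ← Matrix.star_eq_conjTranspose, hV2, MU_one t hs]
  · intro j
    have h0 : ∀ i : Fin (2 ^ r), e i = T r i (e 0) := by
      intro i
      rw [T_e, mul_zero, zero_add]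
    have h1 : ∀ i k : Fin (2 ^ r), ((t i * star (t k) : O2) : L) (e j) =
        if k = j then e i else 0 := by
      intro i k
      have h2 : ((t i * star (t k) : O2) : L) = T r i * star (T r k) := by
        show (t i : L) * star (t k : L) = _
        rw [htt i, htt k]
      rw [h2, h0 j]
      show (T r i) ((star (T r k) * T r j) (e 0)) = _
      rw [T_star_mul]
      split_ifs
      · rw [h0 i]
        rfl
      · show (T r i) 0 = 0
        rw [map_zero]
    have h3 : ((∑ i, ∑ k, V i k • (t i * star (t k)) : O2) : L) =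
        ∑ i, ∑ k, V i k • ((t i * star (t k) : O2) : L) := by
      rw [AddSubmonoidClass.coe_finset_sum]
      refine Finset.sum_congr rfl fun i _ => ?_
      rw [AddSubmonoidClass.coe_finset_sum]
      rfl
    rw [h3, ContinuousLinearMap.sum_apply]
    refine Finset.sum_congr rfl fun i _ => ?_
    rw [ContinuousLinearMap.sum_apply, Finset.sum_eq_single j]
    · rw [ContinuousLinearMap.smul_apply, h1, if_pos rfl]
    · intro k _ hk
      rw [ContinuousLinearMap.smul_apply, h1, if_neg hk, smul_zero]
    · intro h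
      exact absurd (Finset.mem_univ j) h

end Vale.Agent.P083
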