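import Vale.Agent.P083.Gram
import Vale.Agent.P083.Matu
import Vale.Agent.P083.Fdu

open scoped ENNReal Topology InnerProductSpace
open Filter

namespace Vale.Agent.P083

open Vale.Agent.P101K

theorem UNI_norm (u : O2) (hu : star u * u = 1) (x : H) : ‖(u : L) x‖ ≤ ‖x‖ := by
  have h1 : ‖u‖ ≤ 1 := by
    have h2 : ‖u‖ * ‖u‖ = 1 := by
      rw [← CStarRing.norm_star_mul_self, hu, norm_one]
    nlinarith [norm_nonneg u]
  have h3 : ‖(u : L)‖ ≤ 1 := h1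
  calc ‖(u : L) x‖ ≤ ‖(u : L)‖ * ‖x‖ := (u : L).le_opNorm x
    _ ≤ 1 * ‖x‖ := mul_le_mul_of_nonneg_right h3 (norm_nonneg _)
    _ = ‖x‖ := one_mul _

/-- Module UNI: from `gram_close`, `fd_unitary`, `exists_unitary_matrix` -/
theorem uni (m : ℕ) (δ : ℝ) (hδ : 0 < δ) (θ η : Fin m → H)
    (h : ∀ i j, ‖⟪θ i, θ j⟫_ℂ - ⟪η i, η j⟫_ℂ‖ ≤ δ) :
    ∃ u : O2, star u * u = 1 ∧ u * star u = 1 ∧
      ∀ j, ‖(u : L) (θ j) - η j‖ ≤ 6 * √(m * δ) := by
  obtain ⟨r, x, y, hg, hx, hy⟩ := gram_close m δ hδ θ η h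
  obtain ⟨V, hV, hVx⟩ := fd_unitary (2 ^ r) m x y hg
  obtain ⟨u, hu1, hu2, hu3⟩ := exists_unitary_matrix r V hV
  refine ⟨u, hu1, hu2, fun j => ?_⟩
  have e1 : (u : L) (∑ k, x j k • e k) = ∑ k, y j k • e k := by
    rw [map_sum]
    have h1 : ∀ k : Fin (2 ^ r), (u : L) (x j k • e k) = ∑ i : Fin (2 ^ r), (V i k * x j k) • e i := by
      intro k
      rw [map_smul, hu3 k, Finset.smul_sum]
      refine Finset.sum_congr rfl fun i _ => ?_
      rw [smul_smul, mul_comm]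
    rw [Finset.sum_congr rfl fun k _ => h1 k, Finset.sum_comm]
    refine Finset.sum_congr rfl fun i _ => ?_
    rw [← Finset.sum_smul]
    rw [hVx j i]
  have e2 : (u : L) (θ j) - η j = (u : L) (θ j - ∑ k, x j k • e k) - (η j - ∑ k, y j k • e k) := by
    rw [map_sub, e1]
    abel
  rw [e2]
  refine (norm_sub_le _ _).trans ?_
  have h3 := (UNI_norm u hu1 (θ j - ∑ k, x j k • e k)).trans (hx j)
  have h4 := hy j
  linarith

end Vale.Agent.P083
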