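import Vale.Agent.P083.KeyA
import Vale.Agent.P083.Uni
import Vale.Agent.P083.State
import Vale.Agent.P083.Est2

open scoped ENNReal Topology InnerProductSpace
open Filter

namespace Vale.Agent.P083

open Vale.Agent.P101K

variable {ω : Ultrafilter ℕ} {A B C : Type} [CStarAlgebra A] [CStarAlgebra B] [CStarAlgebra C]

omit [CStarAlgebra A] [CStarAlgebra B] in
theorem evW_coe (f : A → O2) (g : B → O2) (w : List (A ⊕ B)) :
    ((evW f g w : O2) : L) = evW (fun a => (f a : L)) (fun b => (g b : L)) w := by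
  induction w with
  | nil => rfl
  | cons y w ih =>
    have e1 : evW f g (y :: w) = Sum.elim f g y * evW f g w := by simp [evW]
    have e2 : evW (fun a => (f a : L)) (fun b => (g b : L)) (y :: w) =
        Sum.elim (fun a => (f a : L)) (fun b => (g b : L)) y *
          evW (fun a => (f a : L)) (fun b => (g b : L)) w := by simp [evW]
    rw [e1, e2, ← ih]
    rcases y with y | y <;> rfl

omit [CStarAlgebra A] [CStarAlgebra B] in
theorem evP_coe (f : A → O2) (g : B → O2) (p : List (ℂ × List (A ⊕ B))) :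
    ((evP f g p : O2) : L) = evP (fun a => (f a : L)) (fun b => (g b : L)) p := by
  induction p with
  | nil => rfl
  | cons t p ih =>
    have e1 : evP f g (t :: p) = t.1 • evW f g t.2 + evP f g p := by simp [evP]
    have e2 : evP (fun a => (f a : L)) (fun b => (g b : L)) (t :: p) =
        t.1 • evW (fun a => (f a : L)) (fun b => (g b : L)) t.2 +
          evP (fun a => (f a : L)) (fun b => (g b : L)) p := by simp [evP]
    rw [e1, e2, ← ih, ← evW_coe]
    rfl

theorem key {α : A →⋆ₐ[ℂ] Aom O2 ω} {β : B →⋆ₐ[ℂ] Aom O2 ω} (hα : Function.Injective α)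
    (hβ : Function.Injective β) (lA : Lift ω α) (lB : Lift ω β) [Nontrivial C]
    (i : A →⋆ₐ[ℂ] C) (j : B →⋆ₐ[ℂ] C) (p : List (ℂ × List (A ⊕ B))) (ε : ℝ) (hε : 0 < ε) :
    ∀ᶠ n in (ω : Filter ℕ), ∃ Φ Ψ : O2 →⋆ₐ[ℂ] O2,
      ‖evP i j p‖ - ε ≤ ‖evP (fun a => Φ (lA.seq a n)) (fun b => Ψ (lB.seq b n)) p‖ := by
  classical
  obtain ⟨φ, hφ1, hφ, hφs, hφx⟩ := exists_state (evP i j p)
  -- the words
  set Wl : List (List (A ⊕ B)) := [] :: p.flatMap (fun t => t.2.tails) with hWl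
  set W : Set (List (A ⊕ B)) := {w | w ∈ Wl} with hW
  have hWt : ∀ y w, (y :: w) ∈ W → w ∈ W := by
    intro y w hw
    have h1 : (y :: w) ∈ Wl := hw
    rw [hWl, List.mem_cons] at h1
    rcases h1 with h1 | h1
    · exact absurd h1 (List.cons_ne_nil _ _)
    · rw [List.mem_flatMap] at h1
      obtain ⟨t, ht, h2⟩ := h1
      rw [List.mem_tails] at h2
      show w ∈ Wl
      rw [hWl, List.mem_cons, List.mem_flatMap]
      right
      refine ⟨t, ht, ?_⟩
      rw [List.mem_tails]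
      exact (List.suffix_cons y w).trans h2
  have hnil : [] ∈ W := List.mem_cons_self
  have hpW : ∀ t ∈ p, t.2 ∈ W := by
    intro t ht
    show t.2 ∈ Wl
    rw [hWl, List.mem_cons, List.mem_flatMap]
    right
    refine ⟨t, ht, ?_⟩
    rw [List.mem_tails]
  -- indices
  set q : ℕ := Wl.length with hq
  have hlt : Wl.length < 2 ^ q := Nat.lt_two_pow_self
  have hidx : ∀ w : List (A ⊕ B), ∃ k : Fin (2 ^ q), w ∈ W → Wl.getD k [] = w := by
    intro w
    by_cases hw : w ∈ Wl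
    · obtain ⟨n, hn, h⟩ := List.mem_iff_getElem.1 hw
      refine ⟨⟨n, hn.trans hlt⟩, fun _ => ?_⟩
      rw [List.getD_eq_getElem _ _ hn]
      exact h
    · exact ⟨⟨0, by positivity⟩, fun h => absurd h hw⟩
  choose idx hidx using hidx
  let x : Fin (2 ^ q) → C := fun k => evW i j (Wl.getD k [])
  have hx : ∀ w ∈ W, x (idx w) = evW i j w := by
    intro w hw
    simp only [x]
    rw [hidx w hw]
  -- letters
  let FA : Finset A := (Wl.flatten.filterMap Sum.getLeft?).toFinset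
  let FB : Finset B := (Wl.flatten.filterMap Sum.getRight?).toFinset
  have hFA : ∀ a w, (Sum.inl a :: w) ∈ W → a ∈ FA := by
    intro a w hw
    simp only [FA, List.mem_toFinset, List.mem_filterMap]
    exact ⟨Sum.inl a, List.mem_flatten.2 ⟨_, hw, List.mem_cons_self⟩, rfl⟩
  have hFB : ∀ b w, (Sum.inr b :: w) ∈ W → b ∈ FB := by
    intro b w hw
    simp only [FB, List.mem_toFinset, List.mem_filterMap]
    exact ⟨Sum.inr b, List.mem_flatten.2 ⟨_, hw, List.mem_cons_self⟩, rfl⟩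
  -- bound
  set R : ℝ := 1 + (∑ a ∈ FA, ‖lA.seq a‖ + ∑ b ∈ FB, ‖lB.seq b‖) with hR
  have hRA : ∀ a ∈ FA, ‖lA.seq a‖ ≤ R := by
    intro a ha
    have h1 := Finset.single_le_sum (f := fun a => ‖lA.seq a‖) (fun _ _ => norm_nonneg _) ha
    have h2 : 0 ≤ ∑ b ∈ FB, ‖lB.seq b‖ := Finset.sum_nonneg fun _ _ => norm_nonneg _
    linarith
  have hRB : ∀ b ∈ FB, ‖lB.seq b‖ ≤ R := by
    intro b hb
    have h1 := Finset.single_le_sum (f := fun b => ‖lB.seq b‖) (fun _ _ => norm_nonneg _) hb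
    have h2 : 0 ≤ ∑ a ∈ FA, ‖lA.seq a‖ := Finset.sum_nonneg fun _ _ => norm_nonneg _
    linarith
  have hR1 : 1 ≤ R := by
    have h1 : 0 ≤ ∑ a ∈ FA, ‖lA.seq a‖ := Finset.sum_nonneg fun _ _ => norm_nonneg _
    have h2 : 0 ≤ ∑ b ∈ FB, ‖lB.seq b‖ := Finset.sum_nonneg fun _ _ => norm_nonneg _
    linarith
  obtain ⟨κ0, hκ0, hest⟩ := est_poly i j p φ hφ1 hφx W hWt hnil hpW R hR1 ε hε
  -- the small parameter
  obtain ⟨κ, hκ, hκa, hκb⟩ : ∃ κ : ℝ, 0 < κ ∧ κ ≤ κ0 / 2 ∧
      (R + 1) * (6 * √(((2 ^ q : ℕ) : ℝ) * (2 * κ))) ≤ κ0 / 2 := by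
    refine ⟨min (κ0 / 2) ((κ0 / (12 * (R + 1))) ^ 2 / (2 * ((2 ^ q : ℕ) : ℝ))), by positivity,
      min_le_left _ _, ?_⟩
    have h1 : min (κ0 / 2) ((κ0 / (12 * (R + 1))) ^ 2 / (2 * ((2 ^ q : ℕ) : ℝ))) ≤
        (κ0 / (12 * (R + 1))) ^ 2 / (2 * ((2 ^ q : ℕ) : ℝ)) := min_le_right _ _
    rw [le_div_iff₀ (by positivity)] at h1
    have h2 : √(((2 ^ q : ℕ) : ℝ) * (2 * min (κ0 / 2)
        ((κ0 / (12 * (R + 1))) ^ 2 / (2 * ((2 ^ q : ℕ) : ℝ))))) ≤ κ0 / (12 * (R + 1)) := by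
      rw [Real.sqrt_le_left (by positivity)]
      linarith
    calc (R + 1) * (6 * √(((2 ^ q : ℕ) : ℝ) * (2 * min (κ0 / 2)
        ((κ0 / (12 * (R + 1))) ^ 2 / (2 * ((2 ^ q : ℕ) : ℝ))))))
        ≤ (R + 1) * (6 * (κ0 / (12 * (R + 1)))) := by gcongr
      _ = κ0 / 2 := by field_simp; ring
  have kA := keyA hα lA FA q i φ hφ hφs x κ hκ
  have kB := keyA hβ lB FB q j φ hφ hφs x κ hκ
  filter_upwards [kA, kB] with n hA hB
  obtain ⟨Φ, η, hA1, hA2⟩ := hA
  obtain ⟨Ψ0, θ, hB1, hB2⟩ := hB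
  obtain ⟨u, hu1, hu2, hu⟩ := uni (2 ^ q) (2 * κ) (by positivity) θ η (fun k l => by
    have h1 := hA1 k l
    have h2 := hB1 k l
    calc ‖⟪θ k, θ l⟫_ℂ - ⟪η k, η l⟫_ℂ‖
        = ‖(⟪θ k, θ l⟫_ℂ - φ (star (x k) * x l)) - (⟪η k, η l⟫_ℂ - φ (star (x k) * x l))‖ := by
          congr 1; ring
      _ ≤ κ + κ := (norm_sub_le _ _).trans (add_le_add h2 h1)
      _ = 2 * κ := by ring)
  obtain ⟨Ad, hAd⟩ := exists_Ad u hu1 hu2
  set κ1 : ℝ := 6 * √(((2 ^ q : ℕ) : ℝ) * (2 * κ)) with hκ1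
  have hκ1n : 0 ≤ κ1 := by positivity
  refine ⟨Φ, Ad.comp Ψ0, ?_⟩
  have hnormP : ‖evP (fun a => Φ (lA.seq a n)) (fun b => (Ad.comp Ψ0) (lB.seq b n)) p‖ =
      ‖evP (fun a => ((Φ (lA.seq a n) : O2) : L))
        (fun b => (((Ad.comp Ψ0) (lB.seq b n) : O2) : L)) p‖ := by
    rw [← evP_coe]
    rfl
  rw [hnormP]
  have huL1 : star (u : L) * (u : L) = 1 := congrArg (fun t : O2 => (t : L)) hu1
  have huL2 : (u : L) * star (u : L) = 1 := congrArg (fun t : O2 => (t : L)) hu2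
  have hun : ‖(u : L)‖ ≤ 1 := by
    have h1 : ‖(u : L)‖ * ‖(u : L)‖ = 1 := by
      rw [← CStarRing.norm_star_mul_self, huL1, norm_one]
    nlinarith [norm_nonneg (u : L)]
  have husn : ‖star (u : L)‖ ≤ 1 := (norm_star (u : L)).le.trans hun
  have hback : ∀ k, ‖(star (u : L)) (η k) - θ k‖ ≤ κ1 := by
    intro k
    have e1 : (star (u : L)) (η k) - θ k = (star (u : L)) (η k - (u : L) (θ k)) := by
      rw [map_sub]
      congr 1
      have : (star (u : L) * (u : L)) (θ k) = θ k := by rw [huL1]; rfl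
      exact this.symm
    rw [e1]
    calc ‖(star (u : L)) (η k - (u : L) (θ k))‖ ≤ ‖star (u : L)‖ * ‖η k - (u : L) (θ k)‖ :=
          ContinuousLinearMap.le_opNorm _ _
      _ ≤ 1 * κ1 := by
          gcongr
          rw [norm_sub_rev]
          exact hu k
      _ = κ1 := one_mul _
  refine hest _ _ (fun w => η (idx w)) ?_ ?_ ?_
  · rintro (a | b) w hw
    · show ‖((Φ (lA.seq a n) : O2) : L)‖ ≤ R
      exact ((hom_norm_le Φ _).trans (aom_apply_le _ _)).trans (hRA a (hFA a w hw))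
    · show ‖(((Ad.comp Ψ0) (lB.seq b n) : O2) : L)‖ ≤ R
      exact ((hom_norm_le (Ad.comp Ψ0) _).trans (aom_apply_le _ _)).trans (hRB b (hFB b w hw))
  · rintro (a | b) w hw
    · show ‖((Φ (lA.seq a n) : O2) : L) (η (idx w)) - η (idx (Sum.inl a :: w))‖ ≤ κ0
      refine (hA2 a (hFA a w hw) (idx w) (idx (Sum.inl a :: w)) ?_).trans (by linarith)
      rw [hx w (hWt _ _ hw), hx _ hw]
      simp [evW]
    · show ‖(((Ad.comp Ψ0) (lB.seq b n) : O2) : L) (η (idx w)) - η (idx (Sum.inr b :: w))‖ ≤ κ0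
      have hxw : j b * x (idx w) = x (idx (Sum.inr b :: w)) := by
        rw [hx w (hWt _ _ hw), hx _ hw]
        simp [evW]
      have h0 := hB2 b (hFB b w hw) (idx w) (idx (Sum.inr b :: w)) hxw
      set G : L := ((Ψ0 (lB.seq b n) : O2) : L) with hG
      have hGn : ‖G‖ ≤ R :=
        ((hom_norm_le Ψ0 _).trans (aom_apply_le _ _)).trans (hRB b (hFB b w hw))
      have e0 : (((Ad.comp Ψ0) (lB.seq b n) : O2) : L) = (u : L) * G * star (u : L) := by
        have := hAd (Ψ0 (lB.seq b n))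
        show ((Ad (Ψ0 (lB.seq b n)) : O2) : L) = _
        rw [this]
        rfl
      rw [e0]
      have e1 : ((u : L) * G * star (u : L)) (η (idx w)) - η (idx (Sum.inr b :: w)) =
          (u : L) (G ((star (u : L)) (η (idx w)) - θ (idx w)) +
            (G (θ (idx w)) - θ (idx (Sum.inr b :: w))) -
            ((star (u : L)) (η (idx (Sum.inr b :: w))) - θ (idx (Sum.inr b :: w)))) := by
        have e2 : (u : L) ((star (u : L)) (η (idx (Sum.inr b :: w)))) =
            η (idx (Sum.inr b :: w)) := by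
          have : ((u : L) * star (u : L)) (η (idx (Sum.inr b :: w))) =
            η (idx (Sum.inr b :: w)) := by rw [huL2]; rfl
          exact this
        have e3 : ((u : L) * G * star (u : L)) (η (idx w)) =
            (u : L) (G ((star (u : L)) (η (idx w)))) := rfl
        rw [e3]
        conv_lhs => rw [← e2]
        rw [← map_sub]
        congr 1
        rw [map_sub]
        abel
      rw [e1]
      calc ‖(u : L) (G ((star (u : L)) (η (idx w)) - θ (idx w)) +
            (G (θ (idx w)) - θ (idx (Sum.inr b :: w))) -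
            ((star (u : L)) (η (idx (Sum.inr b :: w))) - θ (idx (Sum.inr b :: w))))‖
          ≤ ‖(u : L)‖ * ‖G ((star (u : L)) (η (idx w)) - θ (idx w)) +
            (G (θ (idx w)) - θ (idx (Sum.inr b :: w))) -
            ((star (u : L)) (η (idx (Sum.inr b :: w))) - θ (idx (Sum.inr b :: w)))‖ :=
            ContinuousLinearMap.le_opNorm _ _
        _ ≤ 1 * (R * κ1 + κ + κ1) := by
            gcongr
            refine (norm_sub_le _ _).trans (add_le_add ((norm_add_le _ _).trans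
              (add_le_add ?_ h0)) (hback _))
            exact (ContinuousLinearMap.le_opNorm _ _).trans
              (mul_le_mul hGn (hback _) (norm_nonneg _) (by linarith))
        _ ≤ κ0 := by linarith
  · intro w hw w' hw'
    have := hA1 (idx w) (idx w')
    rw [hx w hw, hx w' hw'] at this
    exact this.trans (by linarith)

end Vale.Agent.P083
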