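import Vale.Agent.P083.HbvM
import Vale.Agent.P083.CombA

open scoped ENNReal Topology InnerProductSpace
open Filter

namespace Vale.Agent.P083

open Vale.Agent.P101K

variable {ω : Ultrafilter ℕ} {A C : Type} [CStarAlgebra A] [CStarAlgebra C]

theorem exists_Th (r : ℕ) : ∃ Φ : O2 →⋆ₐ[ℂ] O2, ∀ x : O2,
    ((Φ x : O2) : L) = ∑ k : Fin (2 ^ r), T r k * (x : L) * star (T r k) :=
  exists_comb r (fun _ => StarAlgHom.id ℂ O2)

theorem hom_norm_le (Φ : O2 →⋆ₐ[ℂ] O2) (x : O2) : ‖((Φ x : O2) : L)‖ ≤ ‖x‖ :=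
  NonUnitalStarAlgHom.norm_apply_le Φ x

theorem key_sq {F G : L} {ξ ζ : H} {t1 t2 t3 : ℂ} {δ R : ℝ}
    (hR : ‖ξ‖ ^ 2 ≤ R) (h1 : ‖⟪ξ, G ξ⟫_ℂ - t1‖ ≤ δ) (h2 : ‖⟪ζ, F ξ⟫_ℂ - t2‖ ≤ δ)
    (h3 : ‖⟪ζ, ζ⟫_ℂ - t3‖ ≤ δ) (hG : ‖star F * F - G‖ ≤ δ)
    (ht : t1.re - 2 * t2.re + t3.re = 0) : ‖F ξ - ζ‖ ^ 2 ≤ (4 + R) * δ := by
  have e1 : ‖F ξ - ζ‖ ^ 2 = ‖F ξ‖ ^ 2 - 2 * (⟪ζ, F ξ⟫_ℂ).re + ‖ζ‖ ^ 2 := by
    rw [@norm_sub_sq ℂ, inner_re_symm]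
    rfl
  have e2 : ‖F ξ‖ ^ 2 = (⟪ξ, (star F * F) ξ⟫_ℂ).re := by
    rw [mul_apply_eq_comp, ContinuousLinearMap.star_eq_adjoint,
      ContinuousLinearMap.adjoint_inner_right]
    rw [← @inner_self_eq_norm_sq ℂ]
    rfl
  have e3 : ‖ζ‖ ^ 2 = (⟪ζ, ζ⟫_ℂ).re := by
    rw [← @inner_self_eq_norm_sq ℂ]
    rfl
  have e4 : ⟪ξ, (star F * F) ξ⟫_ℂ = ⟪ξ, (star F * F - G) ξ⟫_ℂ + ⟪ξ, G ξ⟫_ℂ := by
    rw [← inner_add_right]
    congr 1
    simp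
  have b0 : ‖⟪ξ, (star F * F - G) ξ⟫_ℂ‖ ≤ δ * R := by
    have hδ : 0 ≤ δ := (norm_nonneg _).trans hG
    calc ‖⟪ξ, (star F * F - G) ξ⟫_ℂ‖ ≤ ‖ξ‖ * ‖(star F * F - G) ξ‖ := norm_inner_le_norm _ _
      _ ≤ ‖ξ‖ * (‖star F * F - G‖ * ‖ξ‖) := by gcongr; exact ContinuousLinearMap.le_opNorm _ _
      _ = ‖star F * F - G‖ * ‖ξ‖ ^ 2 := by ring
      _ ≤ δ * R := by gcongr
  have c0 := (abs_le.1 ((Complex.abs_re_le_norm _).trans b0)).2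
  have c1 := (abs_le.1 ((Complex.abs_re_le_norm _).trans h1)).2
  have c2 := (abs_le.1 ((Complex.abs_re_le_norm _).trans h2)).1
  have c3 := (abs_le.1 ((Complex.abs_re_le_norm _).trans h3)).2
  simp only [Complex.sub_re] at c1 c2 c3
  rw [e1, e2, e3, e4, Complex.add_re]
  linarith

/-- a lift is asymptotically multiplicative, *-preserving and unital -/
theorem lift_one {α : A →⋆ₐ[ℂ] Aom O2 ω} (l : Lift ω α) :
    Tendsto (fun n => ‖l.seq 1 n - 1‖) ω (𝓝 0) := by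
  have h : omk O2 ω (l.seq 1 - 1) = 0 := by
    rw [map_sub, map_one, l.spec, map_one, sub_self]
  have h1 := omk_norm O2 ω (l.seq 1 - 1)
  rw [h, norm_zero] at h1
  exact h1

theorem lift_sq {α : A →⋆ₐ[ℂ] Aom O2 ω} (l : Lift ω α) (a : A) :
    Tendsto (fun n => ‖star (l.seq a n) * l.seq a n - l.seq (star a * a) n‖) ω (𝓝 0) := by
  have h : omk O2 ω (star (l.seq a) * l.seq a - l.seq (star a * a)) = 0 := by
    rw [map_sub, map_mul, map_star, l.spec, l.spec, map_mul, map_star, sub_self]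
  have h1 := omk_norm O2 ω (star (l.seq a) * l.seq a - l.seq (star a * a))
  rw [h, norm_zero] at h1
  exact h1

theorem keyA {α : A →⋆ₐ[ℂ] Aom O2 ω} (hα : Function.Injective α) (l : Lift ω α)
    (F0 : Finset A) (q : ℕ)
    (iA : A →⋆ₐ[ℂ] C) (φ : C →L[ℂ] ℂ) (hφ : ∀ y, 0 ≤ (φ (star y * y)).re)
    (hφs : ∀ y, φ (star y) = star (φ y)) (x : Fin (2 ^ q) → C) (κ : ℝ) (hκ : 0 < κ) :
    ∀ᶠ n in (ω : Filter ℕ), ∃ (Φ : O2 →⋆ₐ[ℂ] O2) (η : Fin (2 ^ q) → H),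
      (∀ i j, ‖⟪η i, η j⟫_ℂ - φ (star (x i) * x j)‖ ≤ κ) ∧
      ∀ a ∈ F0, ∀ k j, iA a * x k = x j → ‖((Φ (l.seq a n) : O2) : L) (η k) - η j‖ ≤ κ := by
  classical
  -- bound for the Gram matrix
  set R1 : ℝ := ∑ i, ‖φ (star (x i) * x i)‖ with hR1
  have hR1' : ∀ i, ‖φ (star (x i) * x i)‖ ≤ R1 := fun i =>
    Finset.single_le_sum (f := fun i => ‖φ (star (x i) * x i)‖) (fun _ _ => norm_nonneg _)
      (Finset.mem_univ i)
  have hR10 : 0 ≤ R1 := Finset.sum_nonneg fun _ _ => norm_nonneg _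
  set R : ℝ := 2 * (R1 + 1) with hR
  have hR0 : 0 < R := by positivity
  -- the small parameter
  obtain ⟨δ, hδ, hδ1, hδ2, hδ3⟩ : ∃ δ : ℝ, 0 < δ ∧ δ ≤ 1 / 2 ∧ δ + δ * R ≤ κ ∧
      (4 + R) * (δ + δ * R) ≤ κ ^ 2 := by
    refine ⟨min (1 / 2) (min (κ / (1 + R)) (κ ^ 2 / ((4 + R) * (1 + R)))), by positivity,
      min_le_left _ _, ?_, ?_⟩
    · have h1 : min (1 / 2) (min (κ / (1 + R)) (κ ^ 2 / ((4 + R) * (1 + R)))) ≤ κ / (1 + R) :=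
        (min_le_right _ _).trans (min_le_left _ _)
      rw [le_div_iff₀ (by positivity)] at h1
      linarith
    · have h1 : min (1 / 2) (min (κ / (1 + R)) (κ ^ 2 / ((4 + R) * (1 + R)))) ≤
          κ ^ 2 / ((4 + R) * (1 + R)) := (min_le_right _ _).trans (min_le_right _ _)
      rw [le_div_iff₀ (by positivity)] at h1
      linarith
  set F : Finset A := insert 1 (F0 ∪ F0.image (fun a => star a * a)) with hF
  have hb := hbv hα l (S := F) (fun s => (s : A)) q iA φ hφ hφs x δ hδ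
  have h1 : ∀ᶠ n in (ω : Filter ℕ), ‖l.seq 1 n - 1‖ < δ :=
    (lift_one l).eventually (gt_mem_nhds hδ)
  have h2 : ∀ᶠ n in (ω : Filter ℕ), ∀ a ∈ F0,
      ‖star (l.seq a n) * l.seq a n - l.seq (star a * a) n‖ < δ := by
    rw [Finset.eventually_all]
    intro a _
    exact (lift_sq l a).eventually (gt_mem_nhds hδ)
  filter_upwards [hb, h1, h2] with n hn h1n h2n
  obtain ⟨r, η, hη⟩ := hn
  obtain ⟨Φ, hΦ⟩ := exists_Th r
  have hη' : ∀ a ∈ F, ∀ i j, ‖⟪η i, ((Φ (l.seq a n) : O2) : L) (η j)⟫_ℂ -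
      φ (star (x i) * iA a * x j)‖ ≤ δ := by
    intro a ha i j
    rw [hΦ]
    exact hη ⟨a, ha⟩ i j
  have hone : (1 : A) ∈ F := Finset.mem_insert_self _ _
  have hdiff : ∀ i j, ⟪η i, η j⟫_ℂ = ⟪η i, ((Φ (l.seq 1 n) : O2) : L) (η j)⟫_ℂ -
      ⟪η i, ((Φ (l.seq 1 n - 1) : O2) : L) (η j)⟫_ℂ := by
    intro i j
    rw [← inner_sub_right]
    congr 1
    rw [map_sub, map_one]
    simp
  have hsm : ∀ i j, ‖⟪η i, ((Φ (l.seq 1 n - 1) : O2) : L) (η j)⟫_ℂ‖ ≤ δ * (‖η i‖ * ‖η j‖) := by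
    intro i j
    calc ‖⟪η i, ((Φ (l.seq 1 n - 1) : O2) : L) (η j)⟫_ℂ‖
        ≤ ‖η i‖ * ‖((Φ (l.seq 1 n - 1) : O2) : L) (η j)‖ := norm_inner_le_norm _ _
      _ ≤ ‖η i‖ * (‖((Φ (l.seq 1 n - 1) : O2) : L)‖ * ‖η j‖) := by
          gcongr; exact ContinuousLinearMap.le_opNorm _ _
      _ ≤ ‖η i‖ * (δ * ‖η j‖) := by
          gcongr
          exact (hom_norm_le Φ _).trans h1n.le
      _ = δ * (‖η i‖ * ‖η j‖) := by ring
  -- norms of the vectors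
  have hnorm : ∀ i, ‖η i‖ ^ 2 ≤ R := by
    intro i
    have a1 := hη' 1 hone i i
    rw [map_one, mul_one] at a1
    have a2 : ‖⟪η i, ((Φ (l.seq 1 n) : O2) : L) (η i)⟫_ℂ‖ ≤ R1 + δ := by
      calc ‖⟪η i, ((Φ (l.seq 1 n) : O2) : L) (η i)⟫_ℂ‖
          = ‖(⟪η i, ((Φ (l.seq 1 n) : O2) : L) (η i)⟫_ℂ - φ (star (x i) * x i)) +
            φ (star (x i) * x i)‖ := by rw [sub_add_cancel]
        _ ≤ δ + R1 := (norm_add_le _ _).trans (add_le_add a1 (hR1' i))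
        _ = R1 + δ := add_comm _ _
    have a3 : ‖η i‖ ^ 2 = ‖⟪η i, η i⟫_ℂ‖ := by
      rw [inner_self_eq_norm_sq_to_K]
      simp
    have a4 : ‖η i‖ ^ 2 ≤ R1 + δ + δ * ‖η i‖ ^ 2 := by
      rw [a3, hdiff i i]
      refine (norm_sub_le _ _).trans (add_le_add a2 ?_)
      have := hsm i i
      rw [← hdiff i i, ← a3]
      calc _ ≤ δ * (‖η i‖ * ‖η i‖) := this
        _ = δ * ‖η i‖ ^ 2 := by ring
    have a5 : δ * ‖η i‖ ^ 2 ≤ 1 / 2 * ‖η i‖ ^ 2 := by gcongr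
    rw [hR]
    linarith
  have hprod : ∀ i j, ‖η i‖ * ‖η j‖ ≤ R := by
    intro i j
    nlinarith [hnorm i, hnorm j, sq_nonneg (‖η i‖ - ‖η j‖)]
  have hgram : ∀ i j, ‖⟪η i, η j⟫_ℂ - φ (star (x i) * x j)‖ ≤ δ + δ * R := by
    intro i j
    have a1 := hη' 1 hone i j
    rw [map_one, mul_one] at a1
    rw [hdiff i j]
    calc ‖⟪η i, ((Φ (l.seq 1 n) : O2) : L) (η j)⟫_ℂ -
        ⟪η i, ((Φ (l.seq 1 n - 1) : O2) : L) (η j)⟫_ℂ - φ (star (x i) * x j)‖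
        = ‖(⟪η i, ((Φ (l.seq 1 n) : O2) : L) (η j)⟫_ℂ - φ (star (x i) * x j)) -
          ⟪η i, ((Φ (l.seq 1 n - 1) : O2) : L) (η j)⟫_ℂ‖ := by congr 1; ring
      _ ≤ δ + δ * (‖η i‖ * ‖η j‖) := (norm_sub_le _ _).trans (add_le_add a1 (hsm i j))
      _ ≤ δ + δ * R := by gcongr; exact hprod i j
  refine ⟨Φ, η, fun i j => (hgram i j).trans hδ2, ?_⟩
  intro a ha k j hkj
  have haF : a ∈ F := Finset.mem_insert_of_mem (Finset.mem_union_left _ ha)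
  have haF2 : star a * a ∈ F := Finset.mem_insert_of_mem (Finset.mem_union_right _
    (Finset.mem_image_of_mem _ ha))
  have hle : δ ≤ δ + δ * R := by nlinarith
  have b1 := (hη' (star a * a) haF2 k k).trans hle
  have b2 := (hη' a haF j k).trans hle
  have b3 := hgram j j
  have hG : ‖star ((Φ (l.seq a n) : O2) : L) * ((Φ (l.seq a n) : O2) : L) -
      ((Φ (l.seq (star a * a) n) : O2) : L)‖ ≤ δ + δ * R := by
    have e1 : star ((Φ (l.seq a n) : O2) : L) * ((Φ (l.seq a n) : O2) : L) -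
      ((Φ (l.seq (star a * a) n) : O2) : L) =
      ((Φ (star (l.seq a n) * l.seq a n - l.seq (star a * a) n) : O2) : L) := by
      rw [map_sub, map_mul, map_star]
      rfl
    rw [e1]
    exact ((hom_norm_le Φ _).trans (h2n a ha).le).trans hle
  have c1 : star (x k) * iA (star a * a) * x k = star (x j) * x j := by
    rw [← hkj, map_mul, map_star, star_mul]
    simp only [mul_assoc]
  have c2 : star (x j) * iA a * x k = star (x j) * x j := by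
    rw [mul_assoc, hkj]
  have hk := key_sq (R := R) (hnorm k) b1 b2 b3 hG (by rw [c1, c2]; ring)
  have h4 : ‖((Φ (l.seq a n) : O2) : L) (η k) - η j‖ ^ 2 ≤ κ ^ 2 := hk.trans hδ3
  exact le_of_sq_le_sq h4 hκ.le

end Vale.Agent.P083
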