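import Vale.Agent.P083.Defs
import Vale.Agent.P083K.E1

open scoped ENNReal Topology InnerProductSpace
open Filter

namespace Vale.Agent.P083

open Vale.Agent.P101K

/-- unital embedding of `A` into `O_2^ω` by representing sequences -/
def EmbedsL (ω : Ultrafilter ℕ) (A : Type) [CStarAlgebra A] : Prop :=
  ∃ s : A → ℕ → L, (∀ a n, s a n ∈ O2) ∧ (∀ a, ∃ C : ℝ, ∀ n, ‖s a n‖ ≤ C) ∧
    Tendsto (fun n => ‖s 1 n - 1‖) ω (𝓝 0) ∧
    (∀ a b, Tendsto (fun n => ‖s (a + b) n - (s a n + s b n)‖) ω (𝓝 0)) ∧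
    (∀ a b, Tendsto (fun n => ‖s (a * b) n - s a n * s b n‖) ω (𝓝 0)) ∧
    (∀ (c : ℂ) (a : A), Tendsto (fun n => ‖s (c • a) n - c • s a n‖) ω (𝓝 0)) ∧
    (∀ a, Tendsto (fun n => ‖s (star a) n - star (s a n)‖) ω (𝓝 0)) ∧
    ∀ a, Tendsto (fun n => ‖s a n‖) ω (𝓝 0) → a = 0

section gen

variable {ω : Ultrafilter ℕ} {O A : Type} [CStarAlgebra O] [Nontrivial O] [CStarAlgebra A]
  {α : A →⋆ₐ[ℂ] Aom O ω} {s : A → Bdd O}

theorem LiftEq_tend {x y : Bdd O} (h : omk O ω x = omk O ω y) :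
    Tendsto (fun n => ‖x n - y n‖) ω (𝓝 0) := by
  have h1 := omk_norm O ω (x - y)
  rw [map_sub, h, sub_self, norm_zero] at h1
  exact h1

theorem LiftEq_one (hs : ∀ a, omk O ω (s a) = α a) :
    Tendsto (fun n => ‖s 1 n - 1‖) ω (𝓝 0) := by
  have h1 : omk O ω (s 1) = omk O ω 1 := by rw [hs, map_one, map_one]
  exact LiftEq_tend h1

theorem LiftEq_add (hs : ∀ a, omk O ω (s a) = α a) (a b : A) :
    Tendsto (fun n => ‖s (a + b) n - (s a n + s b n)‖) ω (𝓝 0) := by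
  have h1 : omk O ω (s (a + b)) = omk O ω (s a + s b) := by
    rw [hs, map_add, map_add, hs, hs]
  exact LiftEq_tend h1

theorem LiftEq_mul (hs : ∀ a, omk O ω (s a) = α a) (a b : A) :
    Tendsto (fun n => ‖s (a * b) n - s a n * s b n‖) ω (𝓝 0) := by
  have h1 : omk O ω (s (a * b)) = omk O ω (s a * s b) := by
    rw [hs, map_mul, map_mul, hs, hs]
  exact LiftEq_tend h1

theorem LiftEq_smul (hs : ∀ a, omk O ω (s a) = α a) (c : ℂ) (a : A) :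
    Tendsto (fun n => ‖s (c • a) n - c • s a n‖) ω (𝓝 0) := by
  have h1 : omk O ω (s (c • a)) = omk O ω (c • s a) := by
    rw [hs, map_smul, map_smul, hs]
  exact LiftEq_tend h1

theorem LiftEq_star (hs : ∀ a, omk O ω (s a) = α a) (a : A) :
    Tendsto (fun n => ‖s (star a) n - star (s a n)‖) ω (𝓝 0) := by
  have h1 : omk O ω (s (star a)) = omk O ω (star (s a)) := by
    rw [hs, map_star, map_star, hs]
  exact LiftEq_tend h1

theorem LiftEq_inj (hs : ∀ a, omk O ω (s a) = α a) (hα : Function.Injective α) (a : A)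
    (ha : Tendsto (fun n => ‖s a n‖) ω (𝓝 0)) : a = 0 := by
  have h1 := omk_norm O ω (s a)
  have h2 : ‖omk O ω (s a)‖ = 0 := tendsto_nhds_unique h1 ha
  rw [hs, norm_eq_zero] at h2
  exact (injective_iff_map_eq_zero α).1 hα a h2

theorem LiftEq_back {γ : A →⋆ₐ[ℂ] Aom O ω} {φ : ℕ → A → O}
    (hγ : ∀ a, ∃ y : Bdd O, (∀ n, y n = φ n a) ∧ γ a = omk O ω y)
    (hinj : ∀ a, Tendsto (fun n => ‖φ n a‖) ω (𝓝 0) → a = 0) : Function.Injective γ := by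
  refine (injective_iff_map_eq_zero γ).2 fun a ha => hinj a ?_
  obtain ⟨y, hy, hγy⟩ := hγ a
  have h2 := omk_norm O ω y
  rw [← hγy, ha, norm_zero] at h2
  refine h2.congr fun n => ?_
  rw [hy n]

end gen

variable {ω : Ultrafilter ℕ} {A : Type} [CStarAlgebra A]

theorem embeds_of_embedsL (h : EmbedsL ω A) : Embeds ω A := by
  obtain ⟨s, hs, hb, h1, hadd, hmul, hsmul, hstar, hinj⟩ := h
  obtain ⟨γ, hγ⟩ := Vale.Agent.P083K.seq_hom (ω := ω) (O := O2) (A := A) (fun n a => ⟨s a n, hs a n⟩)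
      ⟨hb, h1, hadd, hmul, hsmul, hstar⟩
  exact ⟨γ, LiftEq_back hγ hinj⟩

theorem LiftEq_c1 {f : ℕ → O2} (h : Tendsto (fun n => ‖f n - 1‖) ω (𝓝 0)) :
    Tendsto (fun n => ‖((f n : O2) : L) - 1‖) ω (𝓝 0) := h

theorem LiftEq_c2 {f g k : ℕ → O2} (h : Tendsto (fun n => ‖f n - (g n + k n)‖) ω (𝓝 0)) :
    Tendsto (fun n => ‖((f n : O2) : L) - (((g n : O2) : L) + ((k n : O2) : L))‖) ω (𝓝 0) := h

theorem LiftEq_c3 {f g k : ℕ → O2} (h : Tendsto (fun n => ‖f n - g n * k n‖) ω (𝓝 0)) :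
    Tendsto (fun n => ‖((f n : O2) : L) - ((g n : O2) : L) * ((k n : O2) : L)‖) ω (𝓝 0) := h

theorem LiftEq_c4 {f g : ℕ → O2} (c : ℂ) (h : Tendsto (fun n => ‖f n - c • g n‖) ω (𝓝 0)) :
    Tendsto (fun n => ‖((f n : O2) : L) - c • ((g n : O2) : L)‖) ω (𝓝 0) := h

theorem LiftEq_c5 {f g : ℕ → O2} (h : Tendsto (fun n => ‖f n - star (g n)‖) ω (𝓝 0)) :
    Tendsto (fun n => ‖((f n : O2) : L) - star ((g n : O2) : L)‖) ω (𝓝 0) := h

theorem LiftEq_c6 {f : ℕ → O2} (h : Tendsto (fun n => ‖((f n : O2) : L)‖) ω (𝓝 0)) :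
    Tendsto (fun n => ‖f n‖) ω (𝓝 0) := h

theorem LiftEq_c0 (x : Bdd O2) : ∃ C : ℝ, ∀ n, ‖((x n : O2) : L)‖ ≤ C :=
  ⟨‖x‖, fun n => aom_apply_le x n⟩

theorem embedsL_of_embeds (h : Embeds ω A) : EmbedsL ω A := by
  obtain ⟨α, hα⟩ := h
  have h := fun a => omk_surjective O2 ω (α a)
  choose s hs using h
  exact ⟨fun a n => ((s a n : O2) : L), fun a n => (s a n).2, fun a => LiftEq_c0 (s a),
    LiftEq_c1 (LiftEq_one hs), fun a b => LiftEq_c2 (LiftEq_add hs a b),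
    fun a b => LiftEq_c3 (LiftEq_mul hs a b), fun c a => LiftEq_c4 c (LiftEq_smul hs c a),
    fun a => LiftEq_c5 (LiftEq_star hs a), fun a ha => LiftEq_inj hs hα a (LiftEq_c6 ha)⟩

theorem embedsL_iff : EmbedsL ω A ↔ Embeds ω A := ⟨embeds_of_embedsL, embedsL_of_embeds⟩

end Vale.Agent.P083
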