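import Vale.Agent.P083.TRel

open scoped ENNReal Topology InnerProductSpace
open Filter

namespace Vale.Agent.P083

open Vale.Agent.P101K

variable {ω : Ultrafilter ℕ} {A C : Type} [CStarAlgebra A] [CStarAlgebra C]

/-- the isometry `T q i` in the ultrapower -/
noncomputable def TT (ω : Ultrafilter ℕ) (q : ℕ) (i : Fin (2 ^ q)) : Aom O2 ω :=
  omk O2 ω (cst O2 ⟨T q i, T_mem q i⟩)

theorem P0_cst_mul (x y : O2) : cst O2 x * cst O2 y = cst O2 (x * y) := by
  apply lp.ext
  funext n
  rfl

theorem P0_cst_star (x : O2) : star (cst O2 x) = cst O2 (star x) := by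
  apply lp.ext
  funext n
  rfl

theorem P0_cst_one : cst O2 (1 : O2) = 1 := by
  apply lp.ext
  funext n
  rfl

theorem P0_cst_zero : cst O2 (0 : O2) = 0 := by
  apply lp.ext
  funext n
  rfl

theorem P0_cst_add (x y : O2) : cst O2 x + cst O2 y = cst O2 (x + y) := by
  apply lp.ext
  funext n
  rfl

theorem P0_cst_sum {ι : Type} (s : Finset ι) (f : ι → O2) :
    ∑ i ∈ s, cst O2 (f i) = cst O2 (∑ i ∈ s, f i) := by
  classical
  induction s using Finset.induction_on with
  | empty => rw [Finset.sum_empty, Finset.sum_empty, P0_cst_zero]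
  | insert a s ha ih => rw [Finset.sum_insert ha, Finset.sum_insert ha, ih, P0_cst_add]

/-- Module P0 -/
theorem TT_star_mul (q : ℕ) (i j : Fin (2 ^ q)) :
    star (TT ω q i) * TT ω q j = if i = j then 1 else 0 := by
  unfold TT
  rw [← map_star, ← map_mul, P0_cst_star, P0_cst_mul]
  have h : star (⟨T q i, T_mem q i⟩ : O2) * (⟨T q j, T_mem q j⟩ : O2) = if i = j then 1 else 0 := by
    apply Subtype.ext
    have h1 := T_star_mul q i j
    by_cases hij : i = j
    · rw [if_pos hij] at h1 ⊢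
      exact h1
    · rw [if_neg hij] at h1 ⊢
      exact h1
  rw [h]
  by_cases hij : i = j
  · rw [if_pos hij, if_pos hij, P0_cst_one, map_one]
  · rw [if_neg hij, if_neg hij, P0_cst_zero, map_zero]

/-- Module P0 -/
theorem TT_sum (q : ℕ) : ∑ i : Fin (2 ^ q), TT ω q i * star (TT ω q i) = 1 := by
  have h1 : ∀ i : Fin (2 ^ q), TT ω q i * star (TT ω q i) =
      omk O2 ω (cst O2 ((⟨T q i, T_mem q i⟩ : O2) * star (⟨T q i, T_mem q i⟩ : O2))) := by
    intro i
    unfold TT
    rw [← map_star, ← map_mul, P0_cst_star, P0_cst_mul]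
  rw [Finset.sum_congr rfl fun i _ => h1 i, ← map_sum, P0_cst_sum]
  have h2 : ∑ i : Fin (2 ^ q), (⟨T q i, T_mem q i⟩ : O2) * star (⟨T q i, T_mem q i⟩ : O2) = 1 := by
    apply Subtype.ext
    have h := T_sum q
    rw [AddSubmonoidClass.coe_finsetSum]
    exact h
  rw [h2, P0_cst_one, map_one]

end Vale.Agent.P083
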