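import Vale.Agent.P083.Pos0

open scoped ENNReal Topology InnerProductSpace
open Filter

namespace Vale.Agent.P083

open Vale.Agent.P101K

variable {ω : Ultrafilter ℕ} {A C : Type} [CStarAlgebra A] [CStarAlgebra C]

theorem P1_alg {B : Type} [CStarAlgebra B] (t : ℝ) :
    algebraMap ℝ B t = (t : ℂ) • (1 : B) := by
  rw [Algebra.algebraMap_eq_smul_one, ← Complex.coe_smul]

theorem P1_sq {B : Type} [CStarAlgebra B] {y : B} (hy : IsSelfAdjoint y) {t : ℝ}
    (ht : ‖y‖ ≤ t) (h : ‖((t : ℂ) • (1 : B)) - y‖ ≤ t) : ∃ z : B, y = star z * z := by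
  let _ := CStarAlgebra.spectralOrder B
  have _ := CStarAlgebra.spectralOrderedRing B
  have ht0 : 0 ≤ t := (norm_nonneg _).trans ht
  rw [← P1_alg] at h
  lift t to NNReal using ht0
  have h1 := (SpectrumRestricts.nnreal_iff_nnnorm (a := y) (t := t) hy ht).mpr h
  have h0 : 0 ≤ y := (StarOrderedRing.nonneg_iff_spectrum_nonneg (R := ℝ) y).mpr
    (SpectrumRestricts.nnreal_iff.mp h1)
  exact CStarAlgebra.nonneg_iff_eq_star_mul_self.mp h0

theorem P1_norm0 {B : Type} [CStarAlgebra B] (z : B) {t : ℝ} (ht : ‖star z * z‖ ≤ t) :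
    ‖((t : ℂ) • (1 : B)) - star z * z‖ ≤ t := by
  let _ := CStarAlgebra.spectralOrder B
  have _ := CStarAlgebra.spectralOrderedRing B
  have hP : 0 ≤ star z * z := star_mul_self_nonneg z
  have ht0 : 0 ≤ t := (norm_nonneg _).trans ht
  rw [← P1_alg]
  lift t to NNReal using ht0
  exact (SpectrumRestricts.nnreal_iff_nnnorm (a := star z * z) (t := t)
    (IsSelfAdjoint.star_mul_self z) ht).mp (SpectrumRestricts.nnreal_of_nonneg hP)

theorem P1_norm {P : L} (hP : 0 ≤ P) {t : ℝ} (ht : ‖P‖ ≤ t) :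
    ‖((t : ℂ) • (1 : L)) - P‖ ≤ t := by
  have ht0 : 0 ≤ t := (norm_nonneg _).trans ht
  lift t to NNReal using ht0
  have h1 := (SpectrumRestricts.nnreal_iff_nnnorm (a := P) (t := t) (IsSelfAdjoint.of_nonneg hP)
    ht).mp (SpectrumRestricts.nnreal_of_nonneg hP)
  rw [← P1_alg (B := L)]
  exact h1

theorem P1_pos {X : L} (h : ∀ ζ : H, (⟪ζ, X ζ⟫_ℂ).re ≤ 0) : 0 ≤ -(X + star X) := by
  rw [ContinuousLinearMap.nonneg_iff_isPositive, ContinuousLinearMap.isPositive_def']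
  constructor
  · rw [IsSelfAdjoint, star_neg, star_add, star_star, add_comm]
  · intro ζ
    have h1 : (⟪X ζ, ζ⟫_ℂ).re ≤ 0 := by
      have := inner_re_symm (𝕜 := ℂ) (X ζ) ζ
      have h2 := h ζ
      simp only [RCLike.re_to_complex] at this
      rw [this]
      exact h2
    have h2 : (⟪(star X) ζ, ζ⟫_ℂ).re ≤ 0 := by
      rw [ContinuousLinearMap.star_eq_adjoint, ContinuousLinearMap.adjoint_inner_left]
      exact h ζ
    rw [ContinuousLinearMap.reApplyInnerSelf_apply, neg_apply, add_apply,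
      inner_neg_left, inner_add_left]
    simp only [RCLike.re_to_complex, Complex.neg_re, Complex.add_re]
    linarith

theorem P1_close {x X : O2} (h : ∀ ζ : H, (⟪ζ, (X : L) ζ⟫_ℂ).re ≤ 0) {t : ℝ}
    (ht : ‖-(x + star x)‖ + 1 ≤ t) (hd : ‖X - x‖ ≤ 1 / 2) :
    ‖((t : ℂ) • (1 : O2)) - -(x + star x)‖ ≤ t + 2 * ‖X - x‖ := by
  have h1 : ‖(X + star X) - (x + star x)‖ ≤ 2 * ‖X - x‖ := by
    have h2 : (X + star X) - (x + star x) = (X - x) + star (X - x) := by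
      rw [star_sub]
      abel
    rw [h2]
    refine (norm_add_le _ _).trans ?_
    rw [norm_star]
    linarith
  have h3 : ‖(-((X : L) + star (X : L)))‖ ≤ t := by
    have h4 : ‖-(X + star X)‖ ≤ ‖-(x + star x)‖ + 2 * ‖X - x‖ := by
      calc ‖-(X + star X)‖ = ‖-(x + star x) - ((X + star X) - (x + star x))‖ := by
            congr 1
            abel
        _ ≤ ‖-(x + star x)‖ + ‖(X + star X) - (x + star x)‖ := norm_sub_le _ _
        _ ≤ _ := by linarith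
    have h5 : ‖(-((X : L) + star (X : L)))‖ = ‖-(X + star X)‖ := rfl
    rw [h5]
    linarith
  have h6 := P1_norm (P1_pos h) h3
  have h7 : ‖((t : ℂ) • (1 : O2)) - -(X + star X)‖ ≤ t := by
    exact h6
  calc ‖((t : ℂ) • (1 : O2)) - -(x + star x)‖
      = ‖(((t : ℂ) • (1 : O2)) - -(X + star X)) - ((X + star X) - (x + star x))‖ := by
        congr 1
        abel
    _ ≤ ‖((t : ℂ) • (1 : O2)) - -(X + star X)‖ + ‖(X + star X) - (x + star x)‖ := norm_sub_le _ _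
    _ ≤ t + 2 * ‖X - x‖ := by linarith

theorem P1_lim0 {B : Type} [CStarAlgebra B] [Nontrivial B] (x : Bdd B) {t : ℝ}
    (ht : ‖-(x + star x)‖ ≤ t) (e : ℕ → ℝ) (he : Tendsto e ω (𝓝 0))
    (h : ∀ᶠ n in (ω : Filter ℕ), ‖(t : ℂ) • (1 : B) - -(x n + star (x n))‖ ≤ t + e n) :
    ∃ Z : Aom B ω, -(omk B ω x + star (omk B ω x)) = star Z * Z := by
  have homk : omk B ω (-(x + star x)) = -(omk B ω x + star (omk B ω x)) := by
    rw [map_neg, map_add, map_star]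
  have hn1 : ‖omk B ω (((t : ℂ) • (1 : Bdd B)) - -(x + star x))‖ ≤ t := by
    have h1 := omk_norm B ω (((t : ℂ) • (1 : Bdd B)) - -(x + star x))
    have h2 : Tendsto (fun n => t + e n) ω (𝓝 t) := by
      have := he.const_add t
      simpa using this
    exact le_of_tendsto_of_tendsto h1 h2 h
  have hn2 : ‖omk B ω (-(x + star x))‖ ≤ t := by
    refine le_of_tendsto (omk_norm B ω (-(x + star x))) (Eventually.of_forall fun n => ?_)
    exact (aom_apply_le (-(x + star x)) n).trans ht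
  rw [← homk]
  have hsa : IsSelfAdjoint (omk B ω (-(x + star x))) := by
    rw [IsSelfAdjoint, ← map_star, star_neg, star_add, star_star, add_comm]
  refine P1_sq hsa hn2 ?_
  have h3 : (t : ℂ) • (1 : Aom B ω) - omk B ω (-(x + star x)) =
      omk B ω (((t : ℂ) • (1 : Bdd B)) - -(x + star x)) := by
    rw [map_sub, map_smul, map_one]
  rw [h3]
  exact hn1

theorem P1_limit (x : Bdd O2) (X : ℕ → O2)
    (hX : Tendsto (fun n => ‖X n - x n‖) ω (𝓝 0))
    (hpos : ∀ᶠ n in (ω : Filter ℕ), ∀ ζ : H, (⟪ζ, ((X n : O2) : L) ζ⟫_ℂ).re ≤ 0) :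
    ∃ Z : Aom O2 ω, -(omk O2 ω x + star (omk O2 ω x)) = star Z * Z := by
  have hle : ∀ n, ‖-(x n + star (x n))‖ + 1 ≤ ‖-(x + star x)‖ + 1 := by
    intro n
    have := aom_apply_le (-(x + star x)) n
    have h1 : (-(x + star x) : Bdd O2) n = -(x n + star (x n)) := rfl
    rw [h1] at this
    linarith
  have hsm : ∀ᶠ n in (ω : Filter ℕ), ‖X n - x n‖ ≤ 1 / 2 :=
    hX.eventually (eventually_le_nhds (by norm_num))
  refine P1_lim0 x (t := ‖-(x + star x)‖ + 1) (by linarith) (fun n => 2 * ‖X n - x n‖) ?_ ?_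
  · have := hX.const_mul 2
    simpa using this
  · filter_upwards [hpos, hsm] with n hn1 hn2
    exact P1_close hn1 (hle n) hn2

theorem P1_tend {ι : Type} [Fintype ι] {D : Type} [CStarAlgebra D] [Nontrivial D]
    (B : ι → Bdd D) (c : ℕ → ι → ℂ) (c0 : ι → ℂ)
    (hc : ∀ p, Tendsto (fun n => c n p) ω (𝓝 (c0 p))) :
    Tendsto (fun n => ‖(∑ p, c n p • (B p) n) - (∑ p, c0 p • B p : Bdd D) n‖) ω (𝓝 0) := by
  have h1 : Tendsto (fun n => ∑ p, ‖c n p - c0 p‖ * ‖B p‖) ω (𝓝 (∑ p : ι, 0 * ‖B p‖)) :=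
    tendsto_finsetSum _ fun p _ => (tendsto_iff_norm_sub_tendsto_zero.mp (hc p)).mul_const _
  simp only [zero_mul, Finset.sum_const_zero] at h1
  refine squeeze_zero (fun n => norm_nonneg _) (fun n => ?_) h1
  have h2 : (∑ p, c0 p • B p : Bdd D) n = ∑ p, c0 p • (B p) n := by
    rw [lp.coeFn_sum, Finset.sum_apply]
    rfl
  rw [h2, ← Finset.sum_sub_distrib]
  refine (norm_sum_le _ _).trans (Finset.sum_le_sum fun p _ => ?_)
  rw [← sub_smul, norm_smul]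
  exact mul_le_mul_of_nonneg_left (aom_apply_le (B p) n) (norm_nonneg _)

theorem P1_comb {ι : Type} [Fintype ι] (B : ι → Bdd O2) (c : ℕ → ι → ℂ) (c0 : ι → ℂ)
    (hc : ∀ p, Tendsto (fun n => c n p) ω (𝓝 (c0 p)))
    (hpos : ∀ᶠ n in (ω : Filter ℕ), ∀ ζ : H,
      (⟪ζ, ((∑ p, c n p • (B p) n : O2) : L) ζ⟫_ℂ).re ≤ 0) :
    ∃ Z : Aom O2 ω, -(omk O2 ω (∑ p, c0 p • B p) + star (omk O2 ω (∑ p, c0 p • B p))) =
      star Z * Z :=
  P1_limit _ (fun n => ∑ p, c n p • (B p) n) (P1_tend B c c0 hc) hpos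

/-- the operator `T a T*` as an element of `O2` -/
theorem P1_coe {ι : Type} [Fintype ι] (c : ι → ℂ) (b : ι → O2) (ζ : H) :
    ⟪ζ, ((∑ p, c p • b p : O2) : L) ζ⟫_ℂ = ∑ p, c p * ⟪ζ, ((b p : O2) : L) ζ⟫_ℂ := by
  have h1 : ((∑ p, c p • b p : O2) : L) = ∑ p, c p • ((b p : O2) : L) := by
    rw [AddSubmonoidClass.coe_finsetSum]
    rfl
  rw [h1, sum_apply, inner_sum]
  refine Finset.sum_congr rfl fun p _ => ?_
  rw [smul_apply, inner_smul_right]

/-- the sequences `T a T*` -/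
noncomputable def P1_B {α : A →⋆ₐ[ℂ] Aom O2 ω} (l : Lift ω α) {S : Type} (a : S → A) (q : ℕ)
    (p : S × Fin (2 ^ q) × Fin (2 ^ q)) : Bdd O2 :=
  cst O2 ⟨T q p.2.1, T_mem q p.2.1⟩ * l.seq (a p.1) * star (cst O2 ⟨T q p.2.2, T_mem q p.2.2⟩)

theorem P1_omk {α : A →⋆ₐ[ℂ] Aom O2 ω} (l : Lift ω α) {S : Type} [Fintype S] (a : S → A) (q : ℕ)
    (c0 : S → Fin (2 ^ q) → Fin (2 ^ q) → ℂ) :
    omk O2 ω (∑ p : S × Fin (2 ^ q) × Fin (2 ^ q), c0 p.1 p.2.1 p.2.2 • P1_B l a q p) =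
      ∑ s, ∑ i, ∑ j, c0 s i j • (TT ω q i * α (a s) * star (TT ω q j)) := by
  rw [map_sum, Fintype.sum_prod_type]
  refine Finset.sum_congr rfl fun s _ => ?_
  rw [Fintype.sum_prod_type]
  refine Finset.sum_congr rfl fun i _ => Finset.sum_congr rfl fun j _ => ?_
  rw [map_smul, P1_B, map_mul, map_mul, map_star, l.spec]
  rfl

theorem P1_inner {α : A →⋆ₐ[ℂ] Aom O2 ω} (l : Lift ω α) {S : Type} (a : S → A) (q : ℕ)
    (p : S × Fin (2 ^ q) × Fin (2 ^ q)) (n : ℕ) (ζ : H) :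
    ⟪ζ, ((P1_B l a q p n : O2) : L) ζ⟫_ℂ =
      ⟪(star (T q p.2.1)) ζ, ((l.seq (a p.1) n : O2) : L) ((star (T q p.2.2)) ζ)⟫_ℂ := by
  have h1 : ((P1_B l a q p n : O2) : L) =
      T q p.2.1 * ((l.seq (a p.1) n : O2) : L) * star (T q p.2.2) := rfl
  rw [h1, ContinuousLinearMap.star_eq_adjoint (T q p.2.1),
    ContinuousLinearMap.adjoint_inner_left]
  rfl

/-- Module P1: at each `n` of a set of `ω` the operator
`X n = ∑ c n s i j • T q i * (l.seq (a s) n) * star (T q j)` has `Re ⟪ζ, X n ζ⟫ ≤ 0`, so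
`-(X n + star X n)` is positive in `L`, hence in `O2`, hence a square `star Z n * Z n` with `Z n` in
`O2`; the class of `X` is `Y` below (the coefficients converge) -/
theorem pos1 {α : A →⋆ₐ[ℂ] Aom O2 ω} (l : Lift ω α) {S : Type} [Fintype S] (a : S → A) (q : ℕ)
    (c : ℕ → S → Fin (2 ^ q) → Fin (2 ^ q) → ℂ) (c0 : S → Fin (2 ^ q) → Fin (2 ^ q) → ℂ)
    (hc : ∀ s i j, Tendsto (fun n => c n s i j) ω (𝓝 (c0 s i j)))
    (hn : ∀ᶠ n in (ω : Filter ℕ), ∀ ζ : Fin (2 ^ q) → H,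
      (∑ s, ∑ i, ∑ j, c n s i j * ⟪ζ i, ((l.seq (a s) n : O2) : L) (ζ j)⟫_ℂ).re ≤ 0) :
    ∃ Z : Aom O2 ω, -((∑ s, ∑ i, ∑ j, c0 s i j • (TT ω q i * α (a s) * star (TT ω q j))) +
      star (∑ s, ∑ i, ∑ j, c0 s i j • (TT ω q i * α (a s) * star (TT ω q j)))) =
        star Z * Z := by
  have h := P1_comb (ω := ω) (P1_B l a q) (fun n p => c n p.1 p.2.1 p.2.2)
    (fun p => c0 p.1 p.2.1 p.2.2) (fun p => hc _ _ _) ?_
  · rw [P1_omk] at h
    exact h
  · filter_upwards [hn] with n hn ζ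
    have h1 := hn (fun i => (star (T q i)) ζ)
    rw [P1_coe]
    refine le_trans (le_of_eq ?_) h1
    congr 1
    rw [Fintype.sum_prod_type]
    refine Finset.sum_congr rfl fun s _ => ?_
    rw [Fintype.sum_prod_type]
    refine Finset.sum_congr rfl fun i _ => Finset.sum_congr rfl fun j _ => ?_
    rw [P1_inner]

end Vale.Agent.P083
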