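import Vale.Agent.P083.TRel

open scoped ENNReal Topology InnerProductSpace
open Filter

namespace Vale.Agent.P083

open Vale.Agent.P101K

theorem SEPA_inner (r : ℕ) (a b : Fin (2 ^ r)) (x y : H) :
    ⟪T r a x, T r b y⟫_ℂ = if a = b then ⟪x, y⟫_ℂ else 0 := by
  have h1 : ⟪T r a x, T r b y⟫_ℂ = ⟪x, (star (T r a) * T r b) y⟫_ℂ := by
    rw [ContinuousLinearMap.star_eq_adjoint, ContinuousLinearMap.mul_apply,
      ContinuousLinearMap.adjoint_inner_right]
  rw [h1, T_star_mul]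
  split_ifs
  · rfl
  · simp

theorem SEPA_theta (r : ℕ) (m : Fin (2 ^ r)) (b : L) (x : H) :
    (∑ k : Fin (2 ^ r), T r k * b * star (T r k)) (T r m x) = T r m (b x) := by
  have h1 : (∑ k : Fin (2 ^ r), T r k * b * star (T r k)) * T r m = T r m * b := by
    rw [Finset.sum_mul, Finset.sum_eq_single m]
    · rw [mul_assoc, T_star_mul, if_pos rfl, mul_one]
    · intro k _ hk
      rw [mul_assoc, T_star_mul, if_neg hk, mul_zero]
    · intro h
      exact absurd (Finset.mem_univ m) h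
  have h2 := congrArg (fun t : L => t x) h1
  exact h2

open scoped Classical in
/-- Module SEPA: the values `(s, i, j) ↦ ⟪η i, Θ_r(b s) η j⟫` (`Θ_r(y) = ∑ T k y T k^*`) contain the
convex hull of the values `⟪ζ i, b s ζ j⟫`: `η j = ∑_k √(t k) T r k (ζ_k j)`, at most `2^r` points -/
theorem sep_hull {S : Type} [Fintype S] (q : ℕ) (b : S → L)
    (y : S → Fin (2 ^ q) → Fin (2 ^ q) → ℂ)
    (hy : y ∈ convexHull ℝ (Set.range (fun (ζ : Fin (2 ^ q) → H) (s : S) (i j : Fin (2 ^ q)) =>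
      ⟪ζ i, b s (ζ j)⟫_ℂ))) :
    ∃ (r : ℕ) (η : Fin (2 ^ q) → H), ∀ s i j,
      ⟪η i, (∑ k : Fin (2 ^ r), T r k * b s * star (T r k)) (η j)⟫_ℂ = y s i j := by
  obtain ⟨ι, hι, w, z, hw0, hw1, hz, hy⟩ := mem_convexHull_iff_exists_fintype.1 hy
  choose ζ hζ using hz
  have hcard : Fintype.card ι ≤ 2 ^ Fintype.card ι := Nat.lt_two_pow_self.le
  let em : ι → Fin (2 ^ Fintype.card ι) := fun k => Fin.castLE hcard (Fintype.equivFin ι k)
  have hem : Function.Injective em := by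
    intro k k' h
    exact (Fintype.equivFin ι).injective (Fin.castLE_injective hcard h)
  refine ⟨Fintype.card ι, fun j => ∑ k : ι, ((Real.sqrt (w k) : ℝ) : ℂ) •
    T (Fintype.card ι) (em k) (ζ k j), fun s i j => ?_⟩
  simp only [map_sum, map_smul, SEPA_theta]
  rw [sum_inner]
  have h1 : ∀ k' ∈ (Finset.univ : Finset ι),
      ⟪((Real.sqrt (w k') : ℝ) : ℂ) • T (Fintype.card ι) (em k') (ζ k' i),
        ∑ k : ι, ((Real.sqrt (w k) : ℝ) : ℂ) • T (Fintype.card ι) (em k) (b s (ζ k j))⟫_ℂ =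
      ((w k' : ℝ) : ℂ) * ⟪ζ k' i, b s (ζ k' j)⟫_ℂ := by
    intro k' _
    rw [inner_sum, Finset.sum_eq_single k']
    · rw [inner_smul_left, inner_smul_right, SEPA_inner, if_pos rfl, Complex.conj_ofReal,
        ← mul_assoc, ← Complex.ofReal_mul, Real.mul_self_sqrt (hw0 k')]
    · intro k _ hk
      rw [inner_smul_left, inner_smul_right, SEPA_inner, if_neg (fun h => hk (hem h).symm)]
      simp
    · intro h
      exact absurd (Finset.mem_univ k') h
  rw [Finset.sum_congr rfl h1, ← hy]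
  simp only [Finset.sum_apply, Pi.smul_apply, ← hζ]
  refine Finset.sum_congr rfl fun k _ => ?_
  rw [Complex.real_smul]

end Vale.Agent.P083
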