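import Vale.Agent.P083.SepA

open scoped ENNReal Topology InnerProductSpace
open Filter

namespace Vale.Agent.P083

open Vale.Agent.P101K

theorem SEPB_lin {ι W : Type*} [Fintype ι] [DecidableEq ι] [AddCommGroup W] [Module ℝ W]
    (φ : (ι → W) →ₗ[ℝ] ℝ) (x : ι → W) :
    φ x = ∑ i, (φ ∘ₗ LinearMap.single ℝ (fun _ => W) i) (x i) := by
  conv_lhs => rw [← Finset.univ_sum_single x]
  rw [map_sum]
  rfl

theorem SEPB_cplx (g : ℂ →ₗ[ℝ] ℝ) (w : ℂ) :
    g w = (((g 1 : ℂ) - Complex.I * (g Complex.I : ℂ)) * w).re := by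
  have h1 : w = w.re • (1 : ℂ) + w.im • Complex.I := by
    apply Complex.ext <;> simp
  have h2 : g w = w.re * g 1 + w.im * g Complex.I := by
    conv_lhs => rw [h1]
    rw [map_add, map_smul, map_smul, smul_eq_mul, smul_eq_mul]
  rw [h2]
  simp only [Complex.mul_re, Complex.sub_re, Complex.sub_im, Complex.ofReal_re, Complex.ofReal_im,
    Complex.I_re, Complex.I_im, Complex.mul_im]
  ring

theorem SEPB_rep {S : Type} [Fintype S] (n : ℕ) (φ : (S → Fin n → Fin n → ℂ) →ₗ[ℝ] ℝ) :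
    ∃ d : S → Fin n → Fin n → ℂ, ∀ x, φ x = (∑ s, ∑ i, ∑ j, d s i j * x s i j).re := by
  classical
  refine ⟨fun s i j => (((((φ ∘ₗ LinearMap.single ℝ (fun _ => Fin n → Fin n → ℂ) s) ∘ₗ
    LinearMap.single ℝ (fun _ => Fin n → ℂ) i) ∘ₗ LinearMap.single ℝ (fun _ => ℂ) j) 1 : ℝ) : ℂ) -
    Complex.I * (((((φ ∘ₗ LinearMap.single ℝ (fun _ => Fin n → Fin n → ℂ) s) ∘ₗ
    LinearMap.single ℝ (fun _ => Fin n → ℂ) i) ∘ₗ LinearMap.single ℝ (fun _ => ℂ) j)
      Complex.I : ℝ) : ℂ), fun x => ?_⟩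
  rw [SEPB_lin φ x]
  simp only [Complex.re_sum]
  refine Finset.sum_congr rfl fun s _ => ?_
  rw [SEPB_lin _ (x s)]
  refine Finset.sum_congr rfl fun i _ => ?_
  rw [SEPB_lin _ (x s i)]
  refine Finset.sum_congr rfl fun j _ => ?_
  exact SEPB_cplx _ _

theorem SEPB_unim (d : ℂ) : ∃ w : ℂ, ‖w‖ ≤ 1 ∧ d * w = (‖d‖ : ℂ) := by
  by_cases h : d = 0
  · exact ⟨0, by simp, by simp [h]⟩
  · refine ⟨(starRingEnd ℂ) d / (‖d‖ : ℂ), ?_, ?_⟩
    · rw [norm_div, RCLike.norm_conj, Complex.norm_real, norm_norm]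
      exact (div_self (norm_ne_zero_iff.mpr h)).le
    · have h0 : (‖d‖ : ℂ) ≠ 0 := by
        simpa using h
      rw [mul_div_assoc', Complex.mul_conj, Complex.normSq_eq_norm_sq, div_eq_iff h0]
      push_cast
      ring

open scoped Classical in
/-- Module SEPB: Hahn-Banach in a finite-dimensional space. Let `K'` be the convex hull above, it is
a convex cone (the generating set is stable under `t ≥ 0`). If no point of `K'` is within `δ` of `z`,
separate `K'` from the open ball (`geometric_hahn_banach_open`): `f < u ≤ f(K')`, so `u ≤ 0 ≤ f` on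
`K'`, and `f z + δ ‖f‖ ≤ 0`. Write the real functional `-f/‖f‖` as `x ↦ Re ∑ c x`. -/
theorem sep {S : Type} [Fintype S] (q : ℕ) (b : S → L)
    (z : S → Fin (2 ^ q) → Fin (2 ^ q) → ℂ) (δ : ℝ) (hδ : 0 < δ) :
    (∃ (r : ℕ) (η : Fin (2 ^ q) → H), ∀ s i j,
      ‖⟪η i, (∑ k : Fin (2 ^ r), T r k * b s * star (T r k)) (η j)⟫_ℂ - z s i j‖ ≤ δ) ∨
    ∃ c : S → Fin (2 ^ q) → Fin (2 ^ q) → ℂ, (∀ s i j, ‖c s i j‖ ≤ 1) ∧
      (∀ ζ : Fin (2 ^ q) → H, (∑ s, ∑ i, ∑ j, c s i j * ⟪ζ i, b s (ζ j)⟫_ℂ).re ≤ 0) ∧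
      δ / 2 ≤ (∑ s, ∑ i, ∑ j, c s i j * z s i j).re := by
  by_cases hK : ∃ y ∈ convexHull ℝ (Set.range (fun (ζ : Fin (2 ^ q) → H) (s : S)
      (i j : Fin (2 ^ q)) => ⟪ζ i, b s (ζ j)⟫_ℂ)), ∀ s i j, ‖y s i j - z s i j‖ ≤ δ
  · left
    obtain ⟨y, hy, hyz⟩ := hK
    obtain ⟨r, η, hη⟩ := sep_hull q b y hy
    exact ⟨r, η, fun s i j => by rw [hη s i j]; exact hyz s i j⟩
  right
  set G : (Fin (2 ^ q) → H) → S → Fin (2 ^ q) → Fin (2 ^ q) → ℂ :=
    fun ζ s i j => ⟪ζ i, b s (ζ j)⟫_ℂ with hG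
  have hdisj : Disjoint (Metric.ball z δ) (convexHull ℝ (Set.range G)) := by
    rw [Set.disjoint_left]
    intro y hyz hy
    apply hK
    refine ⟨y, hy, fun s i j => ?_⟩
    rw [Metric.mem_ball] at hyz
    have h1 : dist (y s i j) (z s i j) ≤ dist y z :=
      le_trans (dist_le_pi_dist (y s i) (z s i) j)
        (le_trans (dist_le_pi_dist (y s) (z s) i) (dist_le_pi_dist y z s))
    rw [← dist_eq_norm]
    exact h1.trans hyz.le
  obtain ⟨f, u, hfs, hft⟩ := geometric_hahn_banach_open (convex_ball z δ) Metric.isOpen_ball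
    (convex_convexHull ℝ (Set.range G)) hdisj
  have hGmem : ∀ ζ, G ζ ∈ convexHull ℝ (Set.range G) := fun ζ =>
    subset_convexHull ℝ _ ⟨ζ, rfl⟩
  have hG0 : G 0 = 0 := by
    funext s i j
    simp [hG]
  have hu0 : u ≤ 0 := by
    have := hft _ (hGmem 0)
    rwa [hG0, map_zero] at this
  have hGt : ∀ (t : ℝ) ζ, G (fun k => (t : ℂ) • ζ k) = (t ^ 2) • G ζ := by
    intro t ζ
    funext s i j
    simp only [hG, map_smul, inner_smul_left, inner_smul_right, Pi.smul_apply, Complex.conj_ofReal,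
      Complex.real_smul]
    push_cast
    ring
  have hfG : ∀ ζ, 0 ≤ f (G ζ) := by
    intro ζ
    by_contra hneg
    push Not at hneg
    have h1 : ∀ t : ℝ, u ≤ t ^ 2 * f (G ζ) := by
      intro t
      have := hft _ (hGmem (fun k => (t : ℂ) • ζ k))
      rwa [hGt, map_smul, smul_eq_mul] at this
    have hne : f (G ζ) ≠ 0 := hneg.ne
    have hq : 0 ≤ (u - 1) / f (G ζ) := div_nonneg_of_nonpos (by linarith) hneg.le
    have h2 := h1 (Real.sqrt ((u - 1) / f (G ζ)))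
    rw [Real.sq_sqrt hq, div_mul_cancel₀ _ hne] at h2
    linarith
  obtain ⟨d, hd⟩ := SEPB_rep (2 ^ q) (f : (S → Fin (2 ^ q) → Fin (2 ^ q) → ℂ) →ₗ[ℝ] ℝ)
  have hd' : ∀ x, f x = (∑ s, ∑ i, ∑ j, d s i j * x s i j).re := fun x => hd x
  choose w hw1 hw2 using fun s i j => SEPB_unim (d s i j)
  set M : ℝ := ∑ s, ∑ i, ∑ j, ‖d s i j‖ with hM
  have hfw : f w = M := by
    rw [hd' w]
    simp only [hw2, Complex.re_sum, Complex.ofReal_re, hM]
  have hzb : z + (δ / 2) • w ∈ Metric.ball z δ := by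
    rw [Metric.mem_ball, dist_eq_norm, add_sub_cancel_left, norm_smul, Real.norm_eq_abs,
      abs_of_pos (half_pos hδ)]
    have hwn : ‖w‖ ≤ 1 := by
      rw [pi_norm_le_iff_of_nonneg zero_le_one]
      intro s
      rw [pi_norm_le_iff_of_nonneg zero_le_one]
      intro i
      rw [pi_norm_le_iff_of_nonneg zero_le_one]
      exact fun j => hw1 s i j
    nlinarith
  have hfz : f z + δ / 2 * M < 0 := by
    have h1 := hfs _ hzb
    rw [map_add, map_smul, hfw, smul_eq_mul] at h1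
    linarith
  have hM0 : 0 ≤ M := Finset.sum_nonneg fun s _ => Finset.sum_nonneg fun i _ =>
    Finset.sum_nonneg fun j _ => norm_nonneg _
  have hMpos : 0 < M := by
    rcases hM0.lt_or_eq with h | h
    · exact h
    · exfalso
      have hdz : ∀ s i j, d s i j = 0 := by
        intro s i j
        have h1 : ‖d s i j‖ ≤ M := by
          rw [hM]
          refine le_trans ?_ (Finset.single_le_sum (f := fun s => ∑ i, ∑ j, ‖d s i j‖)
            (fun s _ => Finset.sum_nonneg fun i _ => Finset.sum_nonneg fun j _ => norm_nonneg _)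
            (Finset.mem_univ s))
          refine le_trans ?_ (Finset.single_le_sum (f := fun i => ∑ j, ‖d s i j‖)
            (fun i _ => Finset.sum_nonneg fun j _ => norm_nonneg _) (Finset.mem_univ i))
          exact Finset.single_le_sum (f := fun j => ‖d s i j‖) (fun j _ => norm_nonneg _)
            (Finset.mem_univ j)
        rw [← h] at h1
        exact norm_le_zero_iff.mp h1
      have : f z = 0 := by
        rw [hd' z]
        simp [hdz]
      rw [this, ← h] at hfz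
      simp at hfz
  have hle : ∀ s i j, ‖d s i j‖ ≤ M := by
    intro s i j
    rw [hM]
    refine le_trans ?_ (Finset.single_le_sum (f := fun s => ∑ i, ∑ j, ‖d s i j‖)
      (fun s _ => Finset.sum_nonneg fun i _ => Finset.sum_nonneg fun j _ => norm_nonneg _)
      (Finset.mem_univ s))
    refine le_trans ?_ (Finset.single_le_sum (f := fun i => ∑ j, ‖d s i j‖)
      (fun i _ => Finset.sum_nonneg fun j _ => norm_nonneg _) (Finset.mem_univ i))
    exact Finset.single_le_sum (f := fun j => ‖d s i j‖) (fun j _ => norm_nonneg _)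
      (Finset.mem_univ j)
  have hscale : ∀ x : S → Fin (2 ^ q) → Fin (2 ^ q) → ℂ,
      (∑ s, ∑ i, ∑ j, (((-1 / M : ℝ) : ℂ) * d s i j) * x s i j).re = -(f x) / M := by
    intro x
    rw [hd' x]
    have : (∑ s, ∑ i, ∑ j, (((-1 / M : ℝ) : ℂ) * d s i j) * x s i j) =
        ((-1 / M : ℝ) : ℂ) * ∑ s, ∑ i, ∑ j, d s i j * x s i j := by
      simp only [Finset.mul_sum, mul_assoc]
    rw [this, Complex.re_ofReal_mul]
    ring
  refine ⟨fun s i j => ((-1 / M : ℝ) : ℂ) * d s i j, fun s i j => ?_, fun ζ => ?_, ?_⟩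
  · rw [norm_mul, Complex.norm_real, Real.norm_eq_abs, abs_div, abs_neg, abs_one, abs_of_pos hMpos,
      one_div, inv_mul_le_iff₀ hMpos, mul_one]
    exact hle s i j
  · have h1 := hscale (G ζ)
    have h2 : (∑ s, ∑ i, ∑ j, (((-1 / M : ℝ) : ℂ) * d s i j) * ⟪ζ i, b s (ζ j)⟫_ℂ).re
        = -(f (G ζ)) / M := h1
    rw [h2]
    exact div_nonpos_of_nonpos_of_nonneg (by linarith [hfG ζ]) hM0
  · rw [hscale z, le_div_iff₀ hMpos]
    linarith

end Vale.Agent.P083
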