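import Vale.Agent.P083.Defs

open scoped ENNReal Topology InnerProductSpace
open Filter

namespace Vale.Agent.P083

open Vale.Agent.P101K

/-! Module SH: the isometry `e_n ↦ e_(N n + i)` (`i < N`) exists: `(t f) m = f (m / N)` if
`m % N = i`, else `0`. Then `T_e` for the chosen `T`. Operators are determined by the values on all
`e n` (`dense span`, e.g. `lp.hasSum_single` or `HilbertBasis`). -/

theorem inner_e (m n : ℕ) : ⟪e m, e n⟫_ℂ = if m = n then 1 else 0 := by
  unfold e
  rw [lp.inner_single_left]
  by_cases h : m = n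
  · subst h
    rw [if_pos rfl, lp.single_apply_self]
    simp
  · rw [if_neg h, lp.single_apply_ne _ _ _ h]
    simp

theorem SH_orth (g : ℕ → ℕ) (hg : Function.Injective g) : Orthonormal ℂ (fun n => e (g n)) := by
  rw [orthonormal_iff_ite]
  intro i j
  rw [inner_e]
  by_cases h : i = j
  · subst h; simp
  · rw [if_neg h, if_neg (fun hh => h (hg hh))]

theorem SH_exists (g : ℕ → ℕ) (hg : Function.Injective g) : ∃ t : L, ∀ n, t (e n) = e (g n) := by
  refine ⟨((SH_orth g hg).orthogonalFamily.linearIsometry).toContinuousLinearMap, fun n => ?_⟩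
  have h := (SH_orth g hg).orthogonalFamily.linearIsometry_apply_single (1 : ℂ) (i := n)
  refine Eq.trans h ?_
  simp

theorem exists_shift (N i : ℕ) (hi : i < N) : ∃ t : L, ∀ n, t (e n) = e (N * n + i) := by
  refine SH_exists _ fun a b hab => ?_
  have h1 : N * a = N * b := Nat.add_right_cancel hab
  exact Nat.eq_of_mul_eq_mul_left (lt_of_le_of_lt (Nat.zero_le i) hi) h1

theorem T_e (r : ℕ) (i : Fin (2 ^ r)) (n : ℕ) : T r i (e n) = e (2 ^ r * n + i) := by
  have h := exists_shift (2 ^ r) i i.2
  unfold T
  rw [dif_pos h]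
  exact h.choose_spec n

theorem ext_e {s t : L} (h : ∀ n, s (e n) = t (e n)) : s = t := by
  apply ContinuousLinearMap.ext
  intro f
  have h1 := lp.hasSum_single (E := fun _ : ℕ => ℂ) (p := 2) (by norm_num) f
  have h2 : ∀ n, lp.single (E := fun _ : ℕ => ℂ) 2 n (f n) = f n • e n := by
    intro n
    unfold e
    rw [← lp.single_smul, smul_eq_mul, mul_one]
  simp only [h2] at h1
  have h3 := h1.mapL s
  have h4 := h1.mapL t
  have h5 : (fun n => s (f n • e n)) = fun n => t (f n • e n) := by
    funext n
    rw [map_smul, map_smul, h]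
  rw [h5] at h3
  exact h3.unique h4

end Vale.Agent.P083
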