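import Vale.Agent.P083.Shift

open scoped ENNReal Topology InnerProductSpace
open Filter

namespace Vale.Agent.P083

open Vale.Agent.P101K

/-! Module TR: the Cuntz relations, from `T_e`, `ext_e`, `inner_e`:
`star (T r i) (e m) = e ((m - i) / 2^r)` if `m % 2^r = i`, else `0`. -/

private theorem TR_coord (k : ℕ) (x : H) : ⟪e k, x⟫_ℂ = x k := by
  unfold e
  rw [lp.inner_single_left]
  simp

private theorem TR_ext {x y : H} (h : ∀ k, ⟪e k, x⟫_ℂ = ⟪e k, y⟫_ℂ) : x = y := by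
  refine lp.ext (funext fun k => ?_)
  rw [← TR_coord, ← TR_coord]
  exact h k

private theorem TR_star_e (r : ℕ) (i : Fin (2 ^ r)) (m : ℕ) :
    star (T r i) (e m) = if m % 2 ^ r = i then e (m / 2 ^ r) else 0 := by
  refine TR_ext fun k => ?_
  rw [ContinuousLinearMap.star_eq_adjoint, ContinuousLinearMap.adjoint_inner_right, T_e, inner_e]
  by_cases h : m % 2 ^ r = i
  · rw [if_pos h, inner_e]
    have hiff : 2 ^ r * k + (i : ℕ) = m ↔ k = m / 2 ^ r := by
      constructor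
      · intro hk
        rw [← hk, Nat.mul_add_div (by positivity), Nat.div_eq_of_lt i.2, add_zero]
      · intro hk
        rw [hk, ← h]
        exact Nat.div_add_mod m (2 ^ r)
    simp only [hiff]
  · rw [if_neg h, inner_zero_right, if_neg]
    intro hk
    apply h
    rw [← hk, Nat.mul_add_mod, Nat.mod_eq_of_lt i.2]

theorem T_star_mul (r : ℕ) (i j : Fin (2 ^ r)) :
    star (T r i) * T r j = if i = j then 1 else 0 := by
  refine ext_e fun n => ?_
  rw [mul_apply_eq_comp, T_e, TR_star_e, Nat.mul_add_mod, Nat.mod_eq_of_lt j.2,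
    Nat.mul_add_div (by positivity), Nat.div_eq_of_lt j.2, add_zero]
  by_cases h : i = j
  · subst h
    rw [if_pos rfl, if_pos rfl]
    rfl
  · rw [if_neg h, if_neg fun hh => h (Fin.ext hh.symm)]
    rfl

theorem T_sum (r : ℕ) : ∑ i : Fin (2 ^ r), T r i * star (T r i) = 1 := by
  refine ext_e fun m => ?_
  rw [sum_apply]
  have hm : m % 2 ^ r < 2 ^ r := Nat.mod_lt _ (by positivity)
  rw [Finset.sum_eq_single (⟨m % 2 ^ r, hm⟩ : Fin (2 ^ r))]
  · rw [mul_apply_eq_comp, TR_star_e, if_pos rfl, T_e]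
    have h1 : 2 ^ r * (m / 2 ^ r) + ((⟨m % 2 ^ r, hm⟩ : Fin (2 ^ r)) : ℕ) = m :=
      Nat.div_add_mod m (2 ^ r)
    rw [h1]
    rfl
  · intro j _ hj
    rw [mul_apply_eq_comp, TR_star_e, if_neg, map_zero]
    intro hh
    exact hj (Fin.ext hh.symm)
  · intro hh
    exact absurd (Finset.mem_univ _) hh

private theorem TR_one_mem (b : Fin (2 ^ 1)) : T 1 b ∈ O2 := by
  apply StarSubalgebra.le_topologicalClosure
  apply StarAlgebra.subset_adjoin
  have hb : (b : ℕ) < 2 := b.2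
  rcases Nat.lt_or_ge (b : ℕ) 1 with h | h
  · left
    intro n
    rw [T_e]
    congr 1
    omega
  · right
    intro n
    rw [T_e]
    congr 1
    omega

/-- `T 0 0 = 1`, and `T (r+1) (2^r b + i) = T r i * s_b` with `s_b` in `gens` -/
theorem T_mem (r : ℕ) (i : Fin (2 ^ r)) : T r i ∈ O2 := by
  induction r with
  | zero =>
    have h1 : T 0 i = 1 := by
      refine ext_e fun n => ?_
      rw [T_e]
      have hi : (i : ℕ) < 1 := i.2
      have h2 : 2 ^ 0 * n + (i : ℕ) = n := by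
        have h3 : (i : ℕ) = 0 := by omega
        rw [h3, pow_zero, one_mul, add_zero]
      rw [h2]
      rfl
    rw [h1]
    exact one_mem _
  | succ r ih =>
    have hlt : (i : ℕ) < 2 ^ r * 2 := by rw [← pow_succ]; exact i.2
    have hm : (i : ℕ) % 2 ^ r < 2 ^ r := Nat.mod_lt _ (by positivity)
    have hb : (i : ℕ) / 2 ^ r < 2 ^ 1 := by
      rw [pow_one]
      exact Nat.div_lt_of_lt_mul hlt
    have h1 : T (r + 1) i = T r ⟨(i : ℕ) % 2 ^ r, hm⟩ * T 1 ⟨(i : ℕ) / 2 ^ r, hb⟩ := by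
      refine ext_e fun n => ?_
      rw [mul_apply_eq_comp, T_e, T_e, T_e]
      congr 1
      have h2 := Nat.div_add_mod (i : ℕ) (2 ^ r)
      show 2 ^ (r + 1) * n + (i : ℕ) = 2 ^ r * (2 ^ 1 * n + (i : ℕ) / 2 ^ r) + (i : ℕ) % 2 ^ r
      calc 2 ^ (r + 1) * n + (i : ℕ)
          = 2 ^ (r + 1) * n + (2 ^ r * ((i : ℕ) / 2 ^ r) + (i : ℕ) % 2 ^ r) := by rw [h2]
        _ = _ := by ring
    rw [h1]
    exact mul_mem (ih _) (TR_one_mem _)

end Vale.Agent.P083
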